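import Vale.Agent.P321.R3.H101.Step5

/-! # Truncation of sequences around the first difference -/

namespace Vale.Agent.P321.H678

open Complex Finset Vale.Agent.P321.UB Vale.Agent.P321.R2.H613

theorem inv_one_sub_exp_le {σ : ℝ} (h0 : 0 < σ) (h1 : σ ≤ 1) :
    1 / (1 - Real.exp (-σ)) ≤ 2 / σ := by
  have h2 : Real.exp (-σ) ≤ 1 / (1 + σ) := by
    rw [Real.exp_neg, inv_eq_one_div]
    apply one_div_le_one_div_of_le (by linarith)
    linarith [Real.add_one_le_exp σ]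
  have h3 : σ / 2 ≤ 1 - Real.exp (-σ) := by
    have h4 : 1 / (1 + σ) ≤ 1 - σ / 2 := by
      rw [div_le_iff₀ (by linarith)]
      nlinarith
    linarith
  calc 1 / (1 - Real.exp (-σ)) ≤ 1 / (σ / 2) := by
        apply one_div_le_one_div_of_le (by linarith) h3
    _ = 2 / σ := by rw [one_div_div]

theorem seqS_shift (z : ℂ) (f : ℕ → ℂ) (a : ℕ) :
    ∀ j, seqS z f (a + j) = z ^ j * seqS z f a + seqS z (fun k => f (a + k)) j
  | 0 => by simp [seqS]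
  | j + 1 => by
      have ih := seqS_shift z f a j
      rw [← add_assoc]
      change z * seqS z f (a + j) + f (a + j) = _ + (z * seqS z (fun k => f (a + k)) j + f (a + j))
      rw [ih]; ring

theorem norm_seqS_geom {z : ℂ} {ρ : ℝ} (hz : ‖z‖ ≤ ρ) (hρ : ρ < 1) {n : ℕ} {f : ℕ → ℂ}
    (hf : ∀ i ≤ n, ‖f i‖ ≤ 1) : ∀ i ≤ n, ‖seqS z f i‖ ≤ 1 / (1 - ρ) := by
  have h1 : 0 < 1 - ρ := by linarith
  have hρ0 : 0 ≤ ρ := (norm_nonneg _).trans hz
  intro i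
  induction i with
  | zero => intro _; simp only [seqS, norm_zero]; positivity
  | succ i ih =>
    intro hi
    have h2 := ih (by omega)
    calc ‖seqS z f (i + 1)‖ = ‖z * seqS z f i + f i‖ := rfl
      _ ≤ ‖z‖ * ‖seqS z f i‖ + ‖f i‖ := (norm_add_le _ _).trans (by rw [norm_mul])
      _ ≤ ρ * (1 / (1 - ρ)) + 1 := by
          gcongr
          exact hf i (by omega)
      _ = 1 / (1 - ρ) := by field_simp; ring

theorem norm_cexp_real (κ y : ℝ) : ‖cexp (-((κ : ℂ) + y * I))‖ = Real.exp (-κ) := by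
  rw [Complex.norm_exp]; simp

/-- Sum of a geometric tail. -/
theorem geom_tail {σ : ℝ} (h0 : 0 < σ) (h1 : σ ≤ 1) (m' m : ℕ) :
    ∑ k ∈ Ico m' m, Real.exp (-σ * k) ≤ Real.exp (-σ * m') * (2 / σ) := by
  have hlt : Real.exp (-σ) < 1 := by rw [Real.exp_lt_one_iff]; linarith
  have h2 : ∑ k ∈ Ico m' m, Real.exp (-σ * k) ≤ Real.exp (-σ * m') * (1 / (1 - Real.exp (-σ))) := by
    have e1 : ∀ k : ℕ, Real.exp (-σ * k) = Real.exp (-σ) ^ k := fun k => by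
      rw [← Real.exp_nat_mul]; ring_nf
    simp only [e1]
    rw [Finset.sum_Ico_eq_sum_range]
    simp only [pow_add, ← Finset.mul_sum]
    gcongr
    have := Summable.sum_le_tsum (range (m - m')) (fun i _ => by positivity)
      (summable_geometric_of_lt_one (Real.exp_pos (-σ)).le hlt)
    rw [tsum_geometric_of_lt_one (Real.exp_pos (-σ)).le hlt] at this
    rw [one_div]; exact this
  exact h2.trans (mul_le_mul_of_nonneg_left (inv_one_sub_exp_le h0 h1) (Real.exp_pos _).le)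

theorem norm_cexp_mul_nat (s : ℂ) (k : ℕ) : ‖cexp (-s * k)‖ = Real.exp (-s.re * k) := by
  rw [Complex.norm_exp]; simp

/-- Comparison of two sums `NN`: tail and approximate coefficients. -/
theorem NN_compare {n i1 a X : ℕ} (hi : i1 ≤ n) (ha : a = i1 - X) {F F' G G' : ℕ → ℂ}
    {s : ℂ} {σ A ε : ℝ} (hs : s.re = σ) (h0 : 0 < σ) (h1 : σ ≤ 1) (hA0 : 0 ≤ A) (hε0 : 0 ≤ ε)
    (hA : ∀ i, i1 ≤ i → i ≤ n → ‖F i - F' i‖ ≤ A)
    (hε : ∀ j, i1 - a ≤ j → a + j ≤ n → ‖(F (a + j) - F' (a + j)) - (G j - G' j)‖ ≤ ε) :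
    ‖NN n i1 F F' s - NN (min n (i1 + X) - a) (i1 - a) G G' s‖ ≤
      (A * Real.exp (-σ * X) + ε) * (2 / σ) := by
  have hai : a ≤ i1 := by omega
  set m := n + 1 - i1 with hm
  set m' := min n (i1 + X) + 1 - i1 with hm'
  have hm'm : m' ≤ m := by omega
  have hmm : min n (i1 + X) - a + 1 - (i1 - a) = m' := by omega
  have e1 : NN n i1 F F' s = (∑ k ∈ range m', dif i1 F F' k * cexp (-s * k)) +
      ∑ k ∈ Ico m' m, dif i1 F F' k * cexp (-s * k) := by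
    unfold NN expSum
    rw [← Finset.sum_range_add_sum_Ico _ hm'm]
  have e2 : NN (min n (i1 + X) - a) (i1 - a) G G' s =
      ∑ k ∈ range m', dif (i1 - a) G G' k * cexp (-s * k) := by
    unfold NN expSum
    rw [hmm]
  rw [e1, e2, add_sub_right_comm, ← Finset.sum_sub_distrib, add_comm, add_mul]
  refine (norm_add_le _ _).trans (add_le_add ?_ ?_)
  · by_cases hX : m' = m
    · rw [hX]; simp; positivity
    have hX' : m' = X + 1 := by omega
    refine (norm_sum_le _ _).trans ?_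
    calc ∑ k ∈ Ico m' m, ‖dif i1 F F' k * cexp (-s * k)‖
        ≤ ∑ k ∈ Ico m' m, A * Real.exp (-σ * k) := by
          apply Finset.sum_le_sum
          intro k hk
          rw [Finset.mem_Ico] at hk
          rw [norm_mul, norm_cexp_mul_nat, hs]
          gcongr
          exact hA (i1 + k) (by omega) (by omega)
      _ = A * ∑ k ∈ Ico m' m, Real.exp (-σ * k) := by rw [Finset.mul_sum]
      _ ≤ A * (Real.exp (-σ * m') * (2 / σ)) := by gcongr; exact geom_tail h0 h1 _ _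
      _ ≤ A * (Real.exp (-σ * X) * (2 / σ)) := by
          gcongr 1
          gcongr 1
          apply Real.exp_le_exp.2
          rw [hX']; push_cast; nlinarith
      _ = _ := by ring
  · refine (norm_sum_le _ _).trans ?_
    calc ∑ k ∈ range m', ‖dif i1 F F' k * cexp (-s * k) - dif (i1 - a) G G' k * cexp (-s * k)‖
        ≤ ∑ k ∈ range m', ε * Real.exp (-σ * k) := by
          apply Finset.sum_le_sum
          intro k hk
          rw [Finset.mem_range] at hk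
          rw [← sub_mul, norm_mul, norm_cexp_mul_nat, hs]
          gcongr
          have h3 := hε (i1 - a + k) (by omega) (by omega)
          have h4 : a + (i1 - a + k) = i1 + k := by omega
          rw [h4] at h3
          exact h3
      _ = ε * ∑ k ∈ range m', Real.exp (-σ * k) := by rw [Finset.mul_sum]
      _ ≤ ε * (Real.exp (-σ * (0 : ℕ)) * (2 / σ)) := by
          gcongr
          rw [Finset.range_eq_Ico]
          exact geom_tail h0 h1 _ _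
      _ = _ := by simp

/-- Lifting of one pair `(F,F')` derived from the shifted sequences. -/
theorem lift_one {n i1 a X : ℕ} (hi : i1 ≤ n) (ha : a = i1 - X) {f f' : ℕ → ℂ}
    {κ Y R : ℝ} (hκ : 0 < κ) (hκ1 : κ ≤ 1) (hX : R ≤ κ * X)
    (hf : ∀ i ≤ n, ‖f i‖ ≤ 1) (hf' : ∀ i ≤ n, ‖f' i‖ ≤ 1)
    {g g' F F' : ℕ → ℂ} (hg : Simple6 (fun j => f (a + j)) (fun j => f' (a + j)) g g')
    (hF : Derived κ Y g g' F F') :
    ∃ G G' H H' : ℕ → ℂ, Simple6 f f' G G' ∧ Derived κ Y G G' H H' ∧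
      (∀ i ≤ n, ‖H i‖ ≤ 2 / κ) ∧ (∀ i ≤ n, ‖H' i‖ ≤ 2 / κ) ∧
      (∀ j, a + j ≤ n → ‖F j‖ ≤ 2 / κ) ∧ (∀ j, a + j ≤ n → ‖F' j‖ ≤ 2 / κ) ∧
      (∀ j, i1 - a ≤ j → a + j ≤ n → ‖H (a + j) - F j‖ ≤ Real.exp (-R) * (2 / κ)) ∧
      (∀ j, i1 - a ≤ j → a + j ≤ n → ‖H' (a + j) - F' j‖ ≤ Real.exp (-R) * (2 / κ)) := by
  have hB1 : 1 ≤ 2 / κ := by rw [le_div_iff₀ hκ]; linarith
  have hlt : Real.exp (-κ) < 1 := by rw [Real.exp_lt_one_iff]; linarith
  have hinv := inv_one_sub_exp_le hκ hκ1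
  have haN : a ≤ n := by omega
  -- the pair before `S_z`
  obtain ⟨G, G', hG, hGg, hGg', hG1, hG1'⟩ : ∃ G G' : ℕ → ℂ, Simple6 f f' G G' ∧
      g = (fun j => G (a + j)) ∧ g' = (fun j => G' (a + j)) ∧
      (∀ i ≤ n, ‖G i‖ ≤ 1) ∧ (∀ i ≤ n, ‖G' i‖ ≤ 1) := by
    rcases hg with ⟨rfl, rfl⟩ | ⟨rfl, rfl⟩
    · exact ⟨f, f', Or.inl ⟨rfl, rfl⟩, rfl, rfl, hf, hf'⟩
    · exact ⟨fun _ => 1, fun _ => 1, Or.inr ⟨rfl, rfl⟩, rfl, rfl, by simp, by simp⟩
  have hbd : ∀ {K : ℕ → ℂ} (z : ℂ), ‖z‖ = Real.exp (-κ) → (∀ i ≤ n, ‖K i‖ ≤ 1) →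
      ∀ i ≤ n, ‖seqS z K i‖ ≤ 2 / κ := fun z hz hK i hin =>
    (norm_seqS_geom hz.le hlt hK i hin).trans hinv
  have hbs : ∀ {K : ℕ → ℂ} (z : ℂ), ‖z‖ = Real.exp (-κ) → (∀ i ≤ n, ‖K i‖ ≤ 1) →
      ∀ j, a + j ≤ n → ‖seqS z (fun k => K (a + k)) j‖ ≤ 2 / κ := fun z hz hK j hj =>
    (norm_seqS_geom (n := n - a) hz.le hlt (fun i hi => hK (a + i) (by omega)) j
      (by omega)).trans hinv
  have hap : ∀ {K : ℕ → ℂ} (z : ℂ), ‖z‖ = Real.exp (-κ) → (∀ i ≤ n, ‖K i‖ ≤ 1) →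
      ∀ j, i1 - a ≤ j → a + j ≤ n →
      ‖seqS z K (a + j) - seqS z (fun k => K (a + k)) j‖ ≤ Real.exp (-R) * (2 / κ) := by
    intro K z hz hK j hj hjn
    rw [seqS_shift, add_sub_cancel_right]
    by_cases ha0 : a = 0
    · have : seqS z K a = 0 := by rw [ha0]; rfl
      rw [this, mul_zero, norm_zero]; positivity
    have hXj : X ≤ j := by omega
    rw [norm_mul, norm_pow, hz, ← Real.exp_nat_mul]
    gcongr
    · have : (X : ℝ) ≤ j := by exact_mod_cast hXj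
      nlinarith
    · exact hbd z hz hK a haN
  rcases hF with ⟨rfl, rfl⟩ | ⟨y, hy, rfl, rfl⟩
  · refine ⟨G, G', G, G', hG, Or.inl ⟨rfl, rfl⟩, fun i h => (hG1 i h).trans hB1,
      fun i h => (hG1' i h).trans hB1, fun j h => ?_, fun j h => ?_, fun j _ h => ?_,
      fun j _ h => ?_⟩
    · rw [hGg]; exact (hG1 _ h).trans hB1
    · rw [hGg']; exact (hG1' _ h).trans hB1
    · rw [hGg]; simp; positivity
    · rw [hGg']; simp; positivity
  · subst hGg hGg'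
    exact ⟨G, G', _, _, hG, Or.inr ⟨y, hy, rfl, rfl⟩, hbd _ (norm_cexp_real κ y) hG1,
      hbd _ (norm_cexp_real κ y) hG1', hbs _ (norm_cexp_real κ y) hG1,
      hbs _ (norm_cexp_real κ y) hG1', hap _ (norm_cexp_real κ y) hG1,
      hap _ (norm_cexp_real κ y) hG1'⟩

theorem norm_prod3_sub_le {x y z x' y' z' : ℂ} {B e : ℝ} (hB : 0 ≤ B)
    (hy : ‖y‖ ≤ B) (hz : ‖z‖ ≤ B) (hx' : ‖x'‖ ≤ B) (hy' : ‖y'‖ ≤ B) (he : 0 ≤ e)
    (h1 : ‖x - x'‖ ≤ e) (h2 : ‖y - y'‖ ≤ e) (h3 : ‖z - z'‖ ≤ e) :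
    ‖x * y * z - x' * y' * z'‖ ≤ 3 * B ^ 2 * e := by
  have e1 : x * y * z - x' * y' * z' = (x - x') * y * z + x' * (y - y') * z + x' * y' * (z - z') := by
    ring
  rw [e1]
  calc ‖(x - x') * y * z + x' * (y - y') * z + x' * y' * (z - z')‖
      ≤ ‖x - x'‖ * ‖y‖ * ‖z‖ + ‖x'‖ * ‖y - y'‖ * ‖z‖ + ‖x'‖ * ‖y'‖ * ‖z - z'‖ := by
        refine (norm_add₃_le).trans ?_
        simp only [norm_mul]; exact le_rfl
    _ ≤ e * B * B + B * e * B + B * B * e := by gcongr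
    _ = _ := by ring

end Vale.Agent.P321.H678
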