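import Vale.Agent.P321.H678.Triv4
import Vale.Agent.P321.H775.QDefs

/-! # The step with four factors and tests at several scales: removal of the length condition -/

namespace Vale.Agent.P321.H678

open Complex Finset Vale.Agent.P321.UB Vale.Agent.P321.R2.H613 Vale.Agent.P321.H775

theorem inv_le_expE {D κ E : ℝ} (hκl : Real.exp (-(D / E)) ≤ κ) : 1 / κ ≤ Real.exp (D / E) := by
  rw [Real.exp_neg] at hκl
  rw [one_div]
  exact inv_le_of_inv_le₀ (Real.exp_pos _) hκl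

/-- Numbers: the length of the truncated pair. -/
theorem numQ_length {B D κ E E' : ℝ} (hB : 0 ≤ B) (hE : 0 < E) (hE2 : 2 * E ≤ E')
    (hE3 : 8 * E ^ 2 * (2 * B + 3) ≤ E') (hE1 : 1 ≤ E') (hD : E' ≤ D)
    (hκl : Real.exp (-(D / E')) ≤ κ) : 2 * (B * D / κ) + 3 ≤ Real.exp (D / E) := by
  have hE'0 : 0 < E' := by linarith
  have hD0 : 0 < D := by linarith
  have h1 : 1 / κ ≤ Real.exp (D / (2 * E)) := by
    refine (inv_le_expE hκl).trans (Real.exp_le_exp.2 ?_)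
    exact div_le_div_of_nonneg_left hD0.le (by positivity) hE2
  have h2 : 2 * B * D + 3 ≤ Real.exp (D / (2 * E)) := by
    have h3 : (D / (2 * E)) ^ 2 / 2 ≤ Real.exp (D / (2 * E)) := by
      have := Real.pow_div_factorial_le_exp (D / (2 * E)) (by positivity) 2
      simpa using this
    refine le_trans ?_ h3
    have h4 : (D / (2 * E)) ^ 2 / 2 = D * D / (8 * E ^ 2) := by
      field_simp; ring
    rw [h4, le_div_iff₀ (by positivity)]
    have h5 : 8 * E ^ 2 * (2 * B + 3) ≤ D := hE3.trans hD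
    have h6 : 2 * B * D + 3 ≤ (2 * B + 3) * D := by nlinarith
    calc (2 * B * D + 3) * (8 * E ^ 2) ≤ ((2 * B + 3) * D) * (8 * E ^ 2) := by gcongr
      _ = (8 * E ^ 2 * (2 * B + 3)) * D := by ring
      _ ≤ D * D := by gcongr
  have h7 : 1 ≤ Real.exp (D / (2 * E)) := Real.one_le_exp (by positivity)
  calc 2 * (B * D / κ) + 3 = 2 * B * D * (1 / κ) + 3 := by ring
    _ ≤ 2 * B * D * Real.exp (D / (2 * E)) + 3 * Real.exp (D / (2 * E)) := by
        gcongr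
        linarith
    _ = (2 * B * D + 3) * Real.exp (D / (2 * E)) := by ring
    _ ≤ Real.exp (D / (2 * E)) * Real.exp (D / (2 * E)) := by gcongr
    _ = Real.exp (D / E) := by
        rw [← Real.exp_add]; congr 1; field_simp; ring

/-- Numbers: the hypothesis for the truncated pair. -/
theorem numQ_start {B D κ κj E' ρ X : ℝ} (hB : 10 ≤ B) (hE1 : 1 ≤ E')
    (hD : E' ≤ D) (hρ : 0 < ρ) (hρE : 1 / ρ ≤ E') (hκ : 0 < κ)
    (hκl : Real.exp (-(D / E')) ≤ κ) (hκj : κ ≤ κj) (hX0 : 0 ≤ X) (hX : B * D ≤ κ * X) :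
    Real.exp (-((1 + ρ) * D)) ≤
      Real.exp (-D) - (2 * Real.exp (-κj * X) + 0) * (2 / κj) := by
  have hκj0 : 0 < κj := hκ.trans_le hκj
  have hD1 : 1 ≤ D := by linarith
  have h1 : Real.exp (-κj * X) ≤ Real.exp (-(B * D)) := by
    apply Real.exp_le_exp.2
    have : κ * X ≤ κj * X := mul_le_mul_of_nonneg_right hκj hX0
    linarith
  have h2 : 1 / κj ≤ Real.exp D := by
    refine (one_div_le_one_div_of_le hκ hκj).trans ((inv_le_expE hκl).trans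
      (Real.exp_le_exp.2 ?_))
    exact div_le_self (by linarith) hE1
  have h4 : (4 : ℝ) ≤ Real.exp 2 := by
    have h4 : Real.exp 2 = Real.exp 1 ^ 2 := by rw [← Real.exp_nat_mul]; norm_num
    rw [h4]
    calc (4 : ℝ) = 2 ^ 2 := by norm_num
      _ ≤ Real.exp 1 ^ 2 := pow_le_pow_left₀ (by norm_num) (by linarith [Real.exp_one_gt_d9]) _
  have h5 : (2 * Real.exp (-κj * X) + 0) * (2 / κj) ≤ Real.exp (-D) / 2 := by
    calc (2 * Real.exp (-κj * X) + 0) * (2 / κj) = 4 * Real.exp (-κj * X) * (1 / κj) := by ring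
      _ ≤ Real.exp 2 * Real.exp (-(B * D)) * Real.exp D := by gcongr
      _ = Real.exp (-1) * Real.exp (3 + -(B * D) + D) := by
          rw [← Real.exp_add, ← Real.exp_add, ← Real.exp_add]; congr 1; ring
      _ ≤ 1 / 2 * Real.exp (-D) := by
          apply mul_le_mul (exp_neg_le_half le_rfl) _ (Real.exp_pos _).le (by norm_num)
          apply Real.exp_le_exp.2
          nlinarith
      _ = _ := by ring
  have h6 : Real.exp (-((1 + ρ) * D)) ≤ Real.exp (-D) / 2 := by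
    have e : -((1 + ρ) * D) = -(ρ * D) + -D := by ring
    rw [e, Real.exp_add]
    have h7 : 1 ≤ ρ * D := by
      rw [div_le_iff₀ hρ] at hρE
      nlinarith
    have := mul_le_mul_of_nonneg_right (exp_neg_le_half h7) (Real.exp_pos (-D)).le
    linarith
  linarith

/-- Numbers: the conclusion for the full pair. -/
theorem numQ_fin {B D κ E' lam1 lam' X : ℝ} (hB : lam1 + 15 ≤ B)
    (hE1 : 5 ≤ E') (hD : E' ≤ D) (hlam : lam1 < lam') (hlE : 1 / (lam' - lam1) ≤ E') (hκ : 0 < κ)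
    (hκl : Real.exp (-(D / E')) ≤ κ) (hX0 : 0 ≤ X) (hX : B * D ≤ κ * X) :
    Real.exp (-(lam' * D)) ≤ Real.exp (-(lam1 * D)) -
      (2 * (2 / κ) ^ 4 * Real.exp (-(100 * κ) * X) +
        8 * (2 / κ) ^ 3 * (Real.exp (-(B * D)) * (2 / κ))) * (2 / (100 * κ)) := by
  have hD1 : 5 ≤ D := by linarith
  obtain ⟨b, hb⟩ : ∃ b : ℝ, b = 2 / κ := ⟨_, rfl⟩
  have hb0 : 0 < b := by rw [hb]; positivity
  have h1 : Real.exp (-(100 * κ) * X) ≤ Real.exp (-(B * D)) := by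
    apply Real.exp_le_exp.2
    have : 0 ≤ κ * X := by positivity
    linarith
  have h2 : 2 / (100 * κ) ≤ b := by
    rw [hb]
    apply div_le_div_of_nonneg_left (by norm_num) hκ
    linarith
  have h3 : b ^ 5 ≤ 32 * Real.exp D := by
    have h4 : b ≤ 2 * Real.exp (D / E') := by
      rw [hb]
      calc 2 / κ = 2 * (1 / κ) := by ring
        _ ≤ _ := by gcongr; exact inv_le_expE hκl
    calc b ^ 5 ≤ (2 * Real.exp (D / E')) ^ 5 := by gcongr
      _ = 32 * Real.exp (5 * (D / E')) := by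
          rw [mul_pow, ← Real.exp_nat_mul]; norm_num
      _ ≤ 32 * Real.exp D := by
          gcongr
          have : D / E' ≤ D / 5 := div_le_div_of_nonneg_left (by linarith) (by norm_num) hE1
          linarith
  have h640 : (640 : ℝ) ≤ Real.exp 10 := by
    have h4 : Real.exp 10 = Real.exp 1 ^ 10 := by rw [← Real.exp_nat_mul]; norm_num
    rw [h4]
    calc (640 : ℝ) ≤ 2 ^ 10 := by norm_num
      _ ≤ Real.exp 1 ^ 10 := pow_le_pow_left₀ (by norm_num) (by linarith [Real.exp_one_gt_d9]) _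
  have h5 : (2 * b ^ 4 * Real.exp (-(100 * κ) * X) + 8 * b ^ 3 * (Real.exp (-(B * D)) * b)) *
      (2 / (100 * κ)) ≤ Real.exp (-(lam1 * D)) / 2 := by
    calc (2 * b ^ 4 * Real.exp (-(100 * κ) * X) + 8 * b ^ 3 * (Real.exp (-(B * D)) * b)) *
        (2 / (100 * κ)) ≤ (2 * b ^ 4 * Real.exp (-(B * D)) +
          8 * b ^ 3 * (Real.exp (-(B * D)) * b)) * b := by gcongr
      _ = 10 * b ^ 5 * Real.exp (-(B * D)) := by ring
      _ ≤ 10 * (32 * Real.exp D) * Real.exp (-(B * D)) := by gcongr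
      _ = 1 / 2 * (640 * Real.exp (D + -(B * D))) := by rw [Real.exp_add]; ring
      _ ≤ 1 / 2 * (Real.exp 10 * Real.exp (D + -(B * D))) := by gcongr
      _ = 1 / 2 * Real.exp (10 + (D + -(B * D))) := by rw [Real.exp_add 10]
      _ ≤ 1 / 2 * Real.exp (-(lam1 * D)) := by
          gcongr
          nlinarith
      _ = _ := by ring
  have h6 : Real.exp (-(lam' * D)) ≤ Real.exp (-(lam1 * D)) / 2 := by
    have e : -(lam' * D) = -((lam' - lam1) * D) + -(lam1 * D) := by ring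
    rw [e, Real.exp_add]
    have h7 : 1 ≤ (lam' - lam1) * D := by
      rw [div_le_iff₀ (by linarith)] at hlE
      have : (lam' - lam1) * E' ≤ (lam' - lam1) * D :=
        mul_le_mul_of_nonneg_left hD (by linarith)
      linarith
    have := mul_le_mul_of_nonneg_right (exp_neg_le_half h7) (Real.exp_pos (-(lam1 * D))).le
    linarith
  rw [← hb]
  linarith

theorem norm_ge_sub_of {P R : ℂ} {A E C : ℝ} (hA : A ≤ ‖P‖) (hE : ‖P - R‖ ≤ E)
    (hC : C ≤ A - E) : C ≤ ‖R‖ := hC.trans (norm_le_add_of hA hE)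

/-- Transfer of the conclusion from the truncated sequences to the full ones. -/
theorem lift_four {n i1 a X S : ℕ} (hi : i1 ≤ n) (ha : a = i1 - X) {f f' : ℕ → ℕ → ℂ}
    {κ Yt R : ℝ} (hκ : 0 < κ) (hκ1 : 100 * κ ≤ 1) (hX : R ≤ κ * X)
    (hf : ∀ j ≤ S, ∀ i ≤ n, ‖f j i‖ ≤ 1) (hf' : ∀ j ≤ S, ∀ i ≤ n, ‖f' j i‖ ≤ 1)
    {g g' F F' : Fin 4 → ℕ → ℂ}
    (hg : ∀ m, ∃ j ≤ S, Simple6 (fun i => f j (a + i)) (fun i => f' j (a + i)) (g m) (g' m))
    (hF : ∀ m, Derived3 κ Yt (g m) (g' m) (F m) (F' m)) {s : ℂ} (hs : s.re = 100 * κ) :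
    ∃ G G' H H' : Fin 4 → ℕ → ℂ, (∀ m, ∃ j ≤ S, Simple6 (f j) (f' j) (G m) (G' m)) ∧
      (∀ m, Derived3 κ Yt (G m) (G' m) (H m) (H' m)) ∧
      ‖NN (min n (i1 + X) - a) (i1 - a) (fun i => F 0 i * F 1 i * F 2 i * F 3 i)
          (fun i => F' 0 i * F' 1 i * F' 2 i * F' 3 i) s -
        NN n i1 (fun i => H 0 i * H 1 i * H 2 i * H 3 i)
          (fun i => H' 0 i * H' 1 i * H' 2 i * H' 3 i) s‖ ≤
      (2 * (2 / κ) ^ 4 * Real.exp (-(100 * κ) * X) +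
        8 * (2 / κ) ^ 3 * (Real.exp (-R) * (2 / κ))) * (2 / (100 * κ)) := by
  have hκ11 : κ ≤ 1 := by linarith
  have hlift : ∀ m, ∃ G G' H H' : ℕ → ℂ, (∃ j ≤ S, Simple6 (f j) (f' j) G G') ∧
      Derived3 κ Yt G G' H H' ∧
      (∀ i ≤ n, ‖H i‖ ≤ 2 / κ) ∧ (∀ i ≤ n, ‖H' i‖ ≤ 2 / κ) ∧
      (∀ j, a + j ≤ n → ‖F m j‖ ≤ 2 / κ) ∧ (∀ j, a + j ≤ n → ‖F' m j‖ ≤ 2 / κ) ∧
      (∀ j, i1 - a ≤ j → a + j ≤ n → ‖H (a + j) - F m j‖ ≤ Real.exp (-R) * (2 / κ)) ∧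
      (∀ j, i1 - a ≤ j → a + j ≤ n → ‖H' (a + j) - F' m j‖ ≤ Real.exp (-R) * (2 / κ)) := by
    intro m
    obtain ⟨j, hj, hS⟩ := hg m
    obtain ⟨G, G', H, H', h1, h2⟩ := lift_one3 hi ha hκ hκ11 hX (hf j hj) (hf' j hj) hS (hF m)
    exact ⟨G, G', H, H', ⟨j, hj, h1⟩, h2⟩
  choose G G' H H' hG hH hHb hHb' hFb hFb' hHF hHF' using hlift
  obtain ⟨B, hB⟩ : ∃ B : ℝ, B = 2 / κ := ⟨_, rfl⟩
  simp only [← hB] at hHb hHb' hFb hFb' hHF hHF' ⊢
  have hB0 : 0 < B := by rw [hB]; positivity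
  have hε0 : 0 ≤ Real.exp (-R) * B := by positivity
  have hσ0 : (0 : ℝ) < 100 * κ := by positivity
  refine ⟨G, G', H, H', hG, hH, ?_⟩
  rw [norm_sub_rev]
  refine NN_compare (A := 2 * B ^ 4) (ε := 8 * B ^ 3 * (Real.exp (-R) * B)) hi ha hs
    hσ0 hκ1 (by positivity) (by positivity) (fun i h1 h2 => ?_) (fun j h1 h2 => ?_)
  · refine (norm_sub_le _ _).trans ?_
    have e1 := norm_prod4_le (hHb 0 i h2) (hHb 1 i h2) (hHb 2 i h2) (hHb 3 i h2)
    have e2 := norm_prod4_le (hHb' 0 i h2) (hHb' 1 i h2) (hHb' 2 i h2) (hHb' 3 i h2)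
    linarith
  · have e1 := norm_prod4_sub_le hB0.le (hHb 1 _ h2) (hHb 2 _ h2) (hHb 3 _ h2) (hFb 0 j h2)
      (hFb 1 j h2) (hFb 2 j h2) hε0 (hHF 0 j h1 h2) (hHF 1 j h1 h2) (hHF 2 j h1 h2)
      (hHF 3 j h1 h2)
    have e2 := norm_prod4_sub_le hB0.le (hHb' 1 _ h2) (hHb' 2 _ h2) (hHb' 3 _ h2) (hFb' 0 j h2)
      (hFb' 1 j h2) (hFb' 2 j h2) hε0 (hHF' 0 j h1 h2) (hHF' 1 j h1 h2) (hHF' 2 j h1 h2)
      (hHF' 3 j h1 h2)
    rw [sub_sub_sub_comm]
    refine (norm_sub_le _ _).trans ?_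
    linarith

/-- **Removal of the length condition.** -/
theorem stepQ_local {lam lam' β Y V E K : ℝ} {S : ℕ} (hlam0 : 0 < lam) (hlam : lam < lam')
    (hE : 0 < E) (hV : 10 ≤ V) (hK : 1 ≤ K) (h : StepQn lam β Y V E K S) :
    ∃ E', E ≤ E' ∧ StepQ lam' β Y V E' K S := by
  obtain ⟨ρ, hρ⟩ : ∃ ρ : ℝ, ρ = (lam' - lam) / (2 * lam) := ⟨_, rfl⟩
  have hρ0 : 0 < ρ := by rw [hρ]; apply div_pos <;> linarith
  have hlam1 : lam * (1 + ρ) = (lam + lam') / 2 := by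
    rw [hρ]; field_simp; ring
  obtain ⟨lam1, hl1⟩ : ∃ l : ℝ, l = (lam + lam') / 2 := ⟨_, rfl⟩
  have hl1' : lam1 < lam' := by rw [hl1]; linarith
  have hl10 : 0 < lam1 := by rw [hl1]; linarith
  obtain ⟨B, hB⟩ : ∃ B : ℝ, B = lam1 + 15 := ⟨_, rfl⟩
  have hB10 : 10 ≤ B := by rw [hB]; linarith
  obtain ⟨E', hE', hE5, hE2, hE3, hρE, hlE⟩ : ∃ E' : ℝ, E ≤ E' ∧ 5 ≤ E' ∧ 2 * E ≤ E' ∧
      8 * E ^ 2 * (2 * B + 3) ≤ E' ∧ 1 / ρ ≤ E' ∧ 1 / (lam' - lam1) ≤ E' := by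
    refine ⟨2 * E + 5 + 8 * E ^ 2 * (2 * B + 3) + 1 / ρ + 1 / (lam' - lam1), ?_⟩
    have a1 : 0 ≤ 8 * E ^ 2 * (2 * B + 3) := by positivity
    have a2 : 0 ≤ 1 / ρ := by positivity
    have a3 : 0 ≤ 1 / (lam' - lam1) := by
      have : 0 < lam' - lam1 := by linarith
      positivity
    refine ⟨by linarith, by linarith, by linarith, by linarith, by linarith, by linarith⟩
  refine ⟨E', hE', ?_⟩
  intro n i1 f f' D κ0 κ s0 hi hreal hreal' hD hf hf' heq hκl hκκ hκ0 hsr hsi hs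
  have hκ : 0 < κ := lt_of_lt_of_le (Real.exp_pos _) hκl
  have hE'0 : 0 < E' := by linarith
  have hD0 : 0 < D := by linarith
  have hK0 : 0 < K := by linarith
  have hKS : 1 ≤ K ^ S := one_le_pow₀ hK
  have hκ0p : 0 < κ0 := by
    have h1 : 0 < V * κ := by positivity
    have h2 : 0 < κ0 / K ^ S := h1.trans_le hκκ
    have h3 : κ0 = κ0 / K ^ S * K ^ S := by field_simp
    rw [h3]
    positivity
  have hκ01 : κ0 ≤ 1 / 10 := by
    rw [le_div_iff₀ (by norm_num)]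
    nlinarith
  have hκ0S : κ0 / K ^ S ≤ κ0 := div_le_self hκ0p.le hKS
  have h100 : 100 * κ ≤ 1 := by nlinarith
  obtain ⟨X, hX⟩ : ∃ X : ℕ, X = ⌈B * D / κ⌉₊ := ⟨_, rfl⟩
  have hXl : B * D / κ ≤ X := by rw [hX]; exact Nat.le_ceil _
  have hXu : (X : ℝ) ≤ B * D / κ + 1 := by
    rw [hX]; exact (Nat.ceil_lt_add_one (by positivity)).le
  have hX0 : (0 : ℝ) ≤ X := Nat.cast_nonneg X
  have hκX : B * D ≤ κ * X := by
    rw [div_le_iff₀ hκ] at hXl; linarith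
  obtain ⟨a, ha⟩ : ∃ a : ℕ, a = i1 - X := ⟨_, rfl⟩
  obtain ⟨h1, hh1⟩ : ∃ h1 : ℕ → ℕ → ℂ, h1 = fun j i => f j (a + i) := ⟨_, rfl⟩
  obtain ⟨h1', hh1'⟩ : ∃ h1' : ℕ → ℕ → ℂ, h1' = fun j i => f' j (a + i) := ⟨_, rfl⟩
  obtain ⟨N, hN⟩ : ∃ N : ℕ, N = min n (i1 + X) - a := ⟨_, rfl⟩
  obtain ⟨D', hD'⟩ : ∃ D' : ℝ, D' = (1 + ρ) * D := ⟨_, rfl⟩
  have hDD' : D ≤ D' := by rw [hD']; nlinarith
  have hNle : (N : ℝ) + 1 ≤ Real.exp (D' / E) := by
    have k1 : N ≤ 2 * X := by omega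
    have k2 : (N : ℝ) ≤ 2 * X := by exact_mod_cast k1
    calc (N : ℝ) + 1 ≤ 2 * (B * D / κ) + 3 := by linarith
      _ ≤ Real.exp (D / E) := numQ_length (by linarith) hE hE2 hE3 (by linarith) hD hκl
      _ ≤ Real.exp (D' / E) := Real.exp_le_exp.2 (by gcongr)
  have hκl' : Real.exp (-(D' / E)) ≤ κ := by
    refine le_trans (Real.exp_le_exp.2 ?_) hκl
    have : D / E' ≤ D' / E := div_le_div₀ (by linarith) hDD' hE hE'
    linarith
  have hres := h N (i1 - a) h1 h1' D' κ0 κ s0 (by omega)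
    (fun j hj i => by rw [hh1]; exact hreal j hj _)
    (fun j hj i => by rw [hh1']; exact hreal' j hj _) (by linarith)
    (fun j hj i hin => by rw [hh1]; exact hf j hj _ (by omega))
    (fun j hj i hin => by rw [hh1']; exact hf' j hj _ (by omega))
    (fun j hj i hin => by rw [hh1, hh1']; exact heq j hj _ (by omega)) hNle hκl' hκκ hκ0 hsr hsi
    (fun j hj => by
      have hKj : 1 ≤ K ^ j := one_le_pow₀ hK
      have hKjS : K ^ j ≤ K ^ S := pow_le_pow_right₀ hK hj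
      have hκj : κ ≤ κ0 / K ^ j := by
        have m1 : κ0 / K ^ S ≤ κ0 / K ^ j :=
          div_le_div_of_nonneg_left hκ0p.le (by positivity) hKjS
        nlinarith
      have hκj1 : κ0 / K ^ j ≤ 1 := (div_le_self hκ0p.le hKj).trans (by linarith)
      have hcmp : ‖NN n i1 (f j) (f' j) (s0 j) - NN N (i1 - a) (h1 j) (h1' j) (s0 j)‖ ≤
          (2 * Real.exp (-(κ0 / K ^ j) * X) + 0) * (2 / (κ0 / K ^ j)) := by
        rw [hN]
        exact NN_compare (F := f j) (F' := f' j) (G := h1 j) (G' := h1' j) (A := 2) (ε := 0) hi ha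
          (hsr j hj) (hκ.trans_le hκj) hκj1 (by norm_num) le_rfl
          (fun i m1 m2 => (norm_sub_le _ _).trans (by linarith [hf j hj i m2, hf' j hj i m2]))
          (fun i m1 m2 => by rw [hh1, hh1', sub_self, norm_zero])
      rw [hD']
      exact norm_ge_sub_of (hs j hj) hcmp
        (numQ_start hB10 (by linarith) hD hρ0 hρE hκ hκl hκj hX0 hκX))
  obtain ⟨g, g', F, F', hg, hF, s, hsre, hsim, hfin⟩ := hres
  subst hh1 hh1' hN
  obtain ⟨G, G', H, H', hG, hH, hc⟩ := lift_four hi ha hκ h100 hκX hf hf' hg hF hsre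
  refine ⟨G, G', H, H', hG, hH, s, hsre, hsim, ?_⟩
  have e1 : lam * D' = lam1 * D := by rw [hD', ← mul_assoc, hlam1, hl1]
  rw [e1] at hfin
  exact norm_ge_sub_of hfin hc (numQ_fin (by rw [hB]) hE5 hD hl1' hlE hκ hκl hX0 hκX)

end Vale.Agent.P321.H678
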