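import Vale.Agent.P321.R2.H613.Product6

/-! # Product relation for four windowed sums (telescoping with inclusive and exclusive past) -/

namespace Vale.Agent.P321.H678

open Complex Finset MeasureTheory Vale.Agent.P321.UB Vale.Agent.P321.R2.H613

/-- Pairs of sequences derived from `(f, f')`: the pair itself, the exclusive filter `S_z` of it, or
the inclusive filter `i ↦ (S_z f) (i + 1)`; here `z = e^{-(κ + i y)}`, `|y| ≤ Y`. -/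
def Derived3 (κ Y : ℝ) (f f' F F' : ℕ → ℂ) : Prop :=
  (F = f ∧ F' = f') ∨
    (∃ y : ℝ, |y| ≤ Y ∧ F = seqS (cexp (-((κ : ℂ) + y * I))) f ∧
      F' = seqS (cexp (-((κ : ℂ) + y * I))) f') ∨
    (∃ y : ℝ, |y| ≤ Y ∧
      F = (fun i => cexp (-((κ : ℂ) + y * I)) * seqS (cexp (-((κ : ℂ) + y * I))) f i + f i) ∧
      F' = (fun i => cexp (-((κ : ℂ) + y * I)) * seqS (cexp (-((κ : ℂ) + y * I))) f' i + f' i))

/-- The role of a factor in the telescoping: current (`0`), exclusive past (`1`) or inclusive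
past (`2`). -/
inductive Role
  | cur
  | exc
  | inc

/-- Tilt of a role. -/
noncomputable def Role.c (σ κ : ℝ) : Role → ℝ
  | .cur => -σ
  | .exc => κ
  | .inc => κ

/-- The factor with the window. -/
noncomputable def Role.P (r : Role) (i1 : ℕ) (θ ω ξ : ℝ) (g : ℕ → ℂ) (i : ℕ) : ℂ :=
  match r with
  | .cur => g i * wnd θ ω ξ ((i : ℝ) - i1)
  | .exc => Gs i1 θ ω ξ g i
  | .inc => Gs i1 θ ω ξ g (i + 1)

/-- The factor at one frequency. -/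
noncomputable def Role.E (r : Role) (i1 : ℕ) (σ κ ξ : ℝ) (g : ℕ → ℂ) (η : ℝ) (i : ℕ) : ℂ :=
  match r with
  | .cur => g i * cexp ((((-σ : ℝ) : ℂ) + (η + ξ : ℝ) * I) * (((i : ℝ) - i1 : ℝ) : ℂ))
  | .exc => Es i1 κ ξ g η i
  | .inc => Es i1 κ ξ g η (i + 1)

/-- The derived sequence of a role. -/
noncomputable def Role.F (r : Role) (κ y : ℝ) (g : ℕ → ℂ) : ℕ → ℂ :=
  match r with
  | .cur => g
  | .exc => seqS (cexp (-((κ : ℂ) + y * I))) g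
  | .inc => fun i => cexp (-((κ : ℂ) + y * I)) * seqS (cexp (-((κ : ℂ) + y * I))) g i + g i

/-- The constant of a role. -/
noncomputable def Role.k (r : Role) (κ y : ℝ) : ℂ :=
  match r with
  | .cur => 1
  | .exc => cexp (-((κ : ℂ) + y * I))
  | .inc => 1

theorem Role.norm_k (r : Role) {κ : ℝ} (hκ : 0 ≤ κ) (y : ℝ) : ‖r.k κ y‖ ≤ 1 := by
  cases r with
  | cur => simp [Role.k]
  | exc => exact norm_cexp_le_one hκ y
  | inc => simp [Role.k]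

theorem Role.derived (r : Role) {κ Y y : ℝ} (hy : |y| ≤ Y) (g g' : ℕ → ℂ) :
    Derived3 κ Y g g' (r.F κ y g) (r.F κ y g') := by
  cases r with
  | cur => exact Or.inl ⟨rfl, rfl⟩
  | exc => exact Or.inr (Or.inl ⟨y, hy, rfl, rfl⟩)
  | inc => exact Or.inr (Or.inr ⟨y, hy, rfl, rfl⟩)

theorem Role.F_congr (r : Role) {κ y : ℝ} {g g' : ℕ → ℂ} {i1 : ℕ} (h : ∀ i < i1, g i = g' i) :
    ∀ i < i1, r.F κ y g i = r.F κ y g' i := by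
  intro i hi
  cases r with
  | cur => exact h i hi
  | exc => exact seqS_congr fun j hj => h j (by omega)
  | inc =>
    change _ * _ + _ = _ * _ + _
    rw [h i hi, seqS_congr fun j hj => h j (by omega)]

/-- Factorisation at one frequency. -/
theorem Role.E_eq (r : Role) (i1 : ℕ) (σ κ ξ : ℝ) (g : ℕ → ℂ) (η : ℝ) (i : ℕ) :
    r.E i1 σ κ ξ g η i = r.k κ (η + ξ) *
      (cexp ((((r.c σ κ : ℝ) : ℂ) + (η + ξ : ℝ) * I) * (((i : ℝ) - i1 : ℝ) : ℂ)) *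
        r.F κ (η + ξ) g i) := by
  cases r with
  | cur => simp only [Role.E, Role.k, Role.c, Role.F]; ring
  | exc =>
    simp only [Role.E, Role.k, Role.c, Role.F]
    unfold Es
    rw [sum_exp_eq_seqS]
  | inc =>
    simp only [Role.E, Role.k, Role.c, Role.F]
    unfold Es
    rw [sum_exp_eq_seqS]
    set w : ℂ := (κ : ℂ) + ((η + ξ : ℝ) : ℂ) * I with hw
    have h1 : seqS (cexp (-w)) g (i + 1) = cexp (-w) * seqS (cexp (-w)) g i + g i := rfl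
    have h2 : cexp (w * ((((i + 1 : ℕ) : ℝ) - i1 : ℝ) : ℂ)) =
        cexp w * cexp (w * (((i : ℝ) - i1 : ℝ) : ℂ)) := by
      rw [← Complex.exp_add]
      congr 1
      push_cast
      ring
    have h3 : cexp (-w) * cexp w = 1 := by
      rw [← Complex.exp_add, neg_add_cancel, Complex.exp_zero]
    rw [h1, h2]
    calc _ = (cexp (-w) * cexp w) * (cexp (w * (((i : ℝ) - i1 : ℝ) : ℂ)) *
          (cexp (-w) * seqS (cexp (-w)) g i + g i)) := by ring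
      _ = _ := by rw [h3]

theorem Role.E_integrable (r : Role) {θ ω σ κ ξ : ℝ} (hθ : 0 < θ) (i1 : ℕ) (g : ℕ → ℂ) (i : ℕ) :
    Integrable (fun η : ℝ => gK θ 1 (ω + r.c σ κ) η * r.E i1 σ κ ξ g η i) := by
  cases r with
  | cur =>
    refine ((inner_integrable' (ω := ω) (κ := -σ) (ξ := ξ) hθ ((i : ℝ) - i1)).const_mul (g i)).congr
      (Filter.Eventually.of_forall fun η => ?_)
    simp only [Role.E, Role.c]
    ring
  | exc => exact Es_integrable' (ω := ω) (κ := κ) (ξ := ξ) hθ i1 g i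
  | inc => exact Es_integrable' (ω := ω) (κ := κ) (ξ := ξ) hθ i1 g (i + 1)

theorem Role.P_eq (r : Role) {θ ω σ κ ξ : ℝ} (hθ : 0 < θ) (i1 : ℕ) (g : ℕ → ℂ) (i : ℕ) :
    r.P i1 θ ω ξ g i = ∫ η : ℝ, gK θ 1 (ω + r.c σ κ) η * r.E i1 σ κ ξ g η i := by
  cases r with
  | cur =>
    simp only [Role.P, Role.E, Role.c]
    rw [← inner_integral' (κ := -σ) hθ, ← integral_const_mul]
    congr 1
    ext η
    ring
  | exc => exact Gs_eq' (ω := ω) (κ := κ) (ξ := ξ) hθ i1 g i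
  | inc => exact Gs_eq' (ω := ω) (κ := κ) (ξ := ξ) hθ i1 g (i + 1)

/-- Peeling one factor. -/
theorem Role.peel (r : Role) {θ ω σ κ ξ : ℝ} (hθ : 0 < θ) (i1 N : ℕ) (g g' c c' : ℕ → ℂ) :
    ∑ i ∈ range N, (c i * r.P i1 θ ω ξ g i - c' i * r.P i1 θ ω ξ g' i) =
      ∫ η : ℝ, gK θ 1 (ω + r.c σ κ) η *
        ∑ i ∈ range N, (c i * r.E i1 σ κ ξ g η i - c' i * r.E i1 σ κ ξ g' η i) := by
  simp_rw [Finset.mul_sum]
  have hint : ∀ i ∈ range N, Integrable (fun η : ℝ => gK θ 1 (ω + r.c σ κ) η *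
      (c i * r.E i1 σ κ ξ g η i - c' i * r.E i1 σ κ ξ g' η i)) := by
    intro i _
    refine (((r.E_integrable (ω := ω) (σ := σ) (κ := κ) (ξ := ξ) hθ i1 g i).const_mul (c i)).sub
      ((r.E_integrable (ω := ω) (σ := σ) (κ := κ) (ξ := ξ) hθ i1 g' i).const_mul (c' i))).congr
      (Filter.Eventually.of_forall fun η => ?_)
    simp only [Pi.sub_apply]
    ring
  rw [integral_finsetSum _ hint]
  apply Finset.sum_congr rfl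
  intro i _
  rw [r.P_eq (σ := σ) (κ := κ) hθ, r.P_eq (σ := σ) (κ := κ) hθ, ← integral_const_mul,
    ← integral_const_mul, ← integral_sub
    ((r.E_integrable (ω := ω) (σ := σ) (κ := κ) (ξ := ξ) hθ i1 g i).const_mul (c i))
    ((r.E_integrable (ω := ω) (σ := σ) (κ := κ) (ξ := ξ) hθ i1 g' i).const_mul (c' i))]
  congr 1
  ext η
  ring

/-- Indicator of a large frequency. -/
noncomputable def big (H η : ℝ) : ℝ := if |η| ≤ H then 0 else 1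

theorem big_nonneg (H η : ℝ) : 0 ≤ big H η := by unfold big; split_ifs <;> norm_num

theorem big_le {H η lam : ℝ} (hl : 0 ≤ lam) : big H η ≤ Real.exp (-(lam * H)) * Ph lam (η + 0) := by
  rw [add_zero]
  unfold big
  split_ifs with h
  · exact mul_nonneg (Real.exp_pos _).le (Ph_pos _ _).le
  · have h1 := le_Ph (S := H) hl (le_of_lt (not_le.1 h))
    calc (1 : ℝ) = Real.exp (-(lam * H)) * Real.exp (lam * H) := by
          rw [← Real.exp_add]; simp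
      _ ≤ _ := mul_le_mul_of_nonneg_left h1 (Real.exp_pos _).le

/-- Gaussian average of a function bounded by `X + P 1_{|η| > H}`. -/
theorem avg_big {θ β H X P : ℝ} (hθ : 0 < θ) (hH : 0 ≤ H) (hP : 0 ≤ P) {F : ℝ → ℂ}
    (hF : ∀ η, ‖F η‖ ≤ X + P * big H η) :
    ‖∫ η : ℝ, gK θ 1 β η * F η‖ ≤ Real.exp (β ^ 2 * θ ^ 2 / 2) *
      (X + P * (2 * Real.exp (-(θ ^ 2 * H ^ 2 / 2)))) := by
  have hl : 0 ≤ θ ^ 2 * H := by positivity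
  have key := avg_Ph (θ := θ) (a := 1) (β := β) (lam := θ ^ 2 * H) (X := X)
    (P := P * Real.exp (-(θ ^ 2 * H * H))) (Q := 0) (u := 0) (v := 0) hθ one_pos (F := F) (by
      intro η
      have h1 := mul_le_mul_of_nonneg_left (big_le (H := H) (η := η) hl) hP
      have h2 := hF η
      calc ‖F η‖ ≤ X + P * big H η := h2
        _ ≤ X + P * (Real.exp (-(θ ^ 2 * H * H)) * Ph (θ ^ 2 * H) (η + 0)) := by linarith
        _ = _ := by ring)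
  refine key.trans (le_of_eq ?_)
  have h0 : Ph (θ ^ 2 * H) 0 = 2 := by unfold Ph; simp; norm_num
  have h1 : Real.exp (-(θ ^ 2 * H ^ 2 / 2)) = Real.exp (-(θ ^ 2 * H * H)) *
      Real.exp (1 * (θ ^ 2 * H) ^ 2 / (2 * θ ^ 2)) := by
    rw [← Real.exp_add]
    congr 1
    field_simp
    ring
  rw [h0, h1, mul_one]
  ring

/-- The innermost sum. -/
theorem inner4 {n i1 : ℕ} (hi : i1 ≤ n) {κ σ δ' : ℝ} (hκ : 0 ≤ κ)
    (r0 r1 r2 r3 : Role) {g0 g1 g2 g3 g0' g1' g2' g3' : ℕ → ℂ}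
    (h0 : ∀ i < i1, g0 i = g0' i) (h1 : ∀ i < i1, g1 i = g1' i) (h2 : ∀ i < i1, g2 i = g2' i)
    (h3 : ∀ i < i1, g3 i = g3' i) {ξ0 ξ1 ξ2 ξ3 : ℝ}
    (hc : r0.c σ κ + r1.c σ κ + r2.c σ κ + r3.c σ κ = -(σ - 3 * κ)) (η0 η1 η2 η3 : ℝ)
    (hB : ‖NN n i1
        (fun i => r0.F κ (η0 + ξ0) g0 i * r1.F κ (η1 + ξ1) g1 i * r2.F κ (η2 + ξ2) g2 i *
          r3.F κ (η3 + ξ3) g3 i)
        (fun i => r0.F κ (η0 + ξ0) g0' i * r1.F κ (η1 + ξ1) g1' i * r2.F κ (η2 + ξ2) g2' i *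
          r3.F κ (η3 + ξ3) g3' i)
        (((σ - 3 * κ : ℝ) : ℂ) - ((η0 + ξ0 + (η1 + ξ1) + (η2 + ξ2) + (η3 + ξ3) : ℝ) : ℂ) * I)‖
      ≤ δ') :
    ‖∑ i ∈ range (n + 1), (r0.E i1 σ κ ξ0 g0 η0 i * r1.E i1 σ κ ξ1 g1 η1 i *
        r2.E i1 σ κ ξ2 g2 η2 i * r3.E i1 σ κ ξ3 g3 η3 i -
      r0.E i1 σ κ ξ0 g0' η0 i * r1.E i1 σ κ ξ1 g1' η1 i *
        r2.E i1 σ κ ξ2 g2' η2 i * r3.E i1 σ κ ξ3 g3' η3 i)‖ ≤ δ' := by
  have hδ : 0 ≤ δ' := (norm_nonneg _).trans hB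
  rw [NN_eq_sum hi (fun i h => by
    rw [r0.F_congr h0 i h, r1.F_congr h1 i h, r2.F_congr h2 i h, r3.F_congr h3 i h])] at hB
  have hE : ∑ i ∈ range (n + 1), (r0.E i1 σ κ ξ0 g0 η0 i * r1.E i1 σ κ ξ1 g1 η1 i *
        r2.E i1 σ κ ξ2 g2 η2 i * r3.E i1 σ κ ξ3 g3 η3 i -
      r0.E i1 σ κ ξ0 g0' η0 i * r1.E i1 σ κ ξ1 g1' η1 i *
        r2.E i1 σ κ ξ2 g2' η2 i * r3.E i1 σ κ ξ3 g3' η3 i) =
      (r0.k κ (η0 + ξ0) * r1.k κ (η1 + ξ1) * r2.k κ (η2 + ξ2) * r3.k κ (η3 + ξ3)) *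
      ∑ i ∈ range (n + 1), (r0.F κ (η0 + ξ0) g0 i * r1.F κ (η1 + ξ1) g1 i *
          r2.F κ (η2 + ξ2) g2 i * r3.F κ (η3 + ξ3) g3 i -
        r0.F κ (η0 + ξ0) g0' i * r1.F κ (η1 + ξ1) g1' i * r2.F κ (η2 + ξ2) g2' i *
          r3.F κ (η3 + ξ3) g3' i) *
        cexp (-(((σ - 3 * κ : ℝ) : ℂ) -
          ((η0 + ξ0 + (η1 + ξ1) + (η2 + ξ2) + (η3 + ξ3) : ℝ) : ℂ) * I) *
          (((i : ℝ) - i1 : ℝ) : ℂ)) := by
    rw [Finset.mul_sum]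
    apply Finset.sum_congr rfl
    intro i _
    simp only [Role.E_eq]
    have e : cexp (-(((σ - 3 * κ : ℝ) : ℂ) -
          ((η0 + ξ0 + (η1 + ξ1) + (η2 + ξ2) + (η3 + ξ3) : ℝ) : ℂ) * I) *
          (((i : ℝ) - i1 : ℝ) : ℂ)) =
        cexp ((((r0.c σ κ : ℝ) : ℂ) + (η0 + ξ0 : ℝ) * I) * (((i : ℝ) - i1 : ℝ) : ℂ)) *
        cexp ((((r1.c σ κ : ℝ) : ℂ) + (η1 + ξ1 : ℝ) * I) * (((i : ℝ) - i1 : ℝ) : ℂ)) *
        cexp ((((r2.c σ κ : ℝ) : ℂ) + (η2 + ξ2 : ℝ) * I) * (((i : ℝ) - i1 : ℝ) : ℂ)) *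
        cexp ((((r3.c σ κ : ℝ) : ℂ) + (η3 + ξ3 : ℝ) * I) * (((i : ℝ) - i1 : ℝ) : ℂ)) := by
      rw [← Complex.exp_add, ← Complex.exp_add, ← Complex.exp_add]
      congr 1
      have hcc : ((r0.c σ κ : ℝ) : ℂ) + r1.c σ κ + r2.c σ κ + r3.c σ κ =
          -((σ - 3 * κ : ℝ) : ℂ) := by exact_mod_cast hc
      have : -(((σ - 3 * κ : ℝ) : ℂ) -
          ((η0 + ξ0 + (η1 + ξ1) + (η2 + ξ2) + (η3 + ξ3) : ℝ) : ℂ) * I) =
          ((r0.c σ κ : ℝ) : ℂ) + r1.c σ κ + r2.c σ κ + r3.c σ κ +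
          ((η0 + ξ0 + (η1 + ξ1) + (η2 + ξ2) + (η3 + ξ3) : ℝ) : ℂ) * I := by
        rw [hcc]; ring
      rw [this]
      push_cast
      ring
    rw [e]
    ring
  rw [hE, norm_mul]
  have hk : ‖r0.k κ (η0 + ξ0) * r1.k κ (η1 + ξ1) * r2.k κ (η2 + ξ2) * r3.k κ (η3 + ξ3)‖ ≤ 1 := by
    rw [norm_mul, norm_mul, norm_mul]
    exact mul_le_one₀ (mul_le_one₀ (mul_le_one₀ (r0.norm_k hκ _) (norm_nonneg _) (r1.norm_k hκ _))
      (norm_nonneg _) (r2.norm_k hκ _)) (norm_nonneg _) (r3.norm_k hκ _)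
  calc _ ≤ 1 * δ' := mul_le_mul hk hB (norm_nonneg _) zero_le_one
    _ = δ' := one_mul _

/-- One term of the telescoping. -/
theorem term4 {n i1 : ℕ} (hi : i1 ≤ n) {κ ω σ θ H δ M : ℝ} (hκ : 0 ≤ κ) (hθ : 0 < θ)
    (hH : 0 ≤ H) (hM : 0 ≤ M)
    (r0 r1 r2 r3 : Role) {g0 g1 g2 g3 g0' g1' g2' g3' : ℕ → ℂ}
    (h0 : ∀ i < i1, g0 i = g0' i) (h1 : ∀ i < i1, g1 i = g1' i) (h2 : ∀ i < i1, g2 i = g2' i)
    (h3 : ∀ i < i1, g3 i = g3' i) {ξ0 ξ1 ξ2 ξ3 : ℝ}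
    (hc : r0.c σ κ + r1.c σ κ + r2.c σ κ + r3.c σ κ = -(σ - 3 * κ))
    (hB : ∀ η0 η1 η2 η3 : ℝ, ‖NN n i1
        (fun i => r0.F κ (η0 + ξ0) g0 i * r1.F κ (η1 + ξ1) g1 i * r2.F κ (η2 + ξ2) g2 i *
          r3.F κ (η3 + ξ3) g3 i)
        (fun i => r0.F κ (η0 + ξ0) g0' i * r1.F κ (η1 + ξ1) g1' i * r2.F κ (η2 + ξ2) g2' i *
          r3.F κ (η3 + ξ3) g3' i)
        (((σ - 3 * κ : ℝ) : ℂ) - ((η0 + ξ0 + (η1 + ξ1) + (η2 + ξ2) + (η3 + ξ3) : ℝ) : ℂ) * I)‖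
      ≤ δ + M * (big H η0 + big H η1 + big H η2 + big H η3)) :
    ‖∑ i ∈ range (n + 1), (r0.P i1 θ ω ξ0 g0 i * r1.P i1 θ ω ξ1 g1 i *
        r2.P i1 θ ω ξ2 g2 i * r3.P i1 θ ω ξ3 g3 i -
      r0.P i1 θ ω ξ0 g0' i * r1.P i1 θ ω ξ1 g1' i *
        r2.P i1 θ ω ξ2 g2' i * r3.P i1 θ ω ξ3 g3' i)‖ ≤
      Real.exp (((ω + r0.c σ κ) ^ 2 + (ω + r1.c σ κ) ^ 2 + (ω + r2.c σ κ) ^ 2 +
        (ω + r3.c σ κ) ^ 2) * θ ^ 2 / 2) *
        (δ + 4 * (M * (2 * Real.exp (-(θ ^ 2 * H ^ 2 / 2))))) := by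
  obtain ⟨τ, hτ⟩ : ∃ τ : ℝ, τ = 2 * Real.exp (-(θ ^ 2 * H ^ 2 / 2)) := ⟨_, rfl⟩
  obtain ⟨W0, hW0⟩ : ∃ W : ℝ, W = Real.exp ((ω + r0.c σ κ) ^ 2 * θ ^ 2 / 2) := ⟨_, rfl⟩
  obtain ⟨W1, hW1⟩ : ∃ W : ℝ, W = Real.exp ((ω + r1.c σ κ) ^ 2 * θ ^ 2 / 2) := ⟨_, rfl⟩
  obtain ⟨W2, hW2⟩ : ∃ W : ℝ, W = Real.exp ((ω + r2.c σ κ) ^ 2 * θ ^ 2 / 2) := ⟨_, rfl⟩
  obtain ⟨W3, hW3⟩ : ∃ W : ℝ, W = Real.exp ((ω + r3.c σ κ) ^ 2 * θ ^ 2 / 2) := ⟨_, rfl⟩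
  have w0 : 0 ≤ W0 := by rw [hW0]; positivity
  have w1 : 0 ≤ W1 := by rw [hW1]; positivity
  have w2 : 0 ≤ W2 := by rw [hW2]; positivity
  have L0 : ∀ η1 η2 η3 : ℝ, ‖∑ i ∈ range (n + 1), (r0.P i1 θ ω ξ0 g0 i *
        r1.E i1 σ κ ξ1 g1 η1 i * r2.E i1 σ κ ξ2 g2 η2 i * r3.E i1 σ κ ξ3 g3 η3 i -
      r0.P i1 θ ω ξ0 g0' i * r1.E i1 σ κ ξ1 g1' η1 i *
        r2.E i1 σ κ ξ2 g2' η2 i * r3.E i1 σ κ ξ3 g3' η3 i)‖ ≤
      W0 * ((δ + M * (big H η1 + big H η2 + big H η3)) + M * τ) := by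
    intro η1 η2 η3
    have e : ∑ i ∈ range (n + 1), (r0.P i1 θ ω ξ0 g0 i *
        r1.E i1 σ κ ξ1 g1 η1 i * r2.E i1 σ κ ξ2 g2 η2 i * r3.E i1 σ κ ξ3 g3 η3 i -
      r0.P i1 θ ω ξ0 g0' i * r1.E i1 σ κ ξ1 g1' η1 i *
        r2.E i1 σ κ ξ2 g2' η2 i * r3.E i1 σ κ ξ3 g3' η3 i) =
      ∑ i ∈ range (n + 1), ((r1.E i1 σ κ ξ1 g1 η1 i * r2.E i1 σ κ ξ2 g2 η2 i *
          r3.E i1 σ κ ξ3 g3 η3 i) * r0.P i1 θ ω ξ0 g0 i -
        (r1.E i1 σ κ ξ1 g1' η1 i * r2.E i1 σ κ ξ2 g2' η2 i *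
          r3.E i1 σ κ ξ3 g3' η3 i) * r0.P i1 θ ω ξ0 g0' i) := by
      apply Finset.sum_congr rfl
      intro i _
      ring
    rw [e, r0.peel (σ := σ) (κ := κ) hθ i1 (n + 1) g0 g0'
      (fun i => r1.E i1 σ κ ξ1 g1 η1 i * r2.E i1 σ κ ξ2 g2 η2 i * r3.E i1 σ κ ξ3 g3 η3 i)
      (fun i => r1.E i1 σ κ ξ1 g1' η1 i * r2.E i1 σ κ ξ2 g2' η2 i * r3.E i1 σ κ ξ3 g3' η3 i),
      hW0, hτ]
    refine avg_big hθ hH hM fun η0 => ?_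
    have h := inner4 hi hκ r0 r1 r2 r3 h0 h1 h2 h3 hc η0 η1 η2 η3 (hB η0 η1 η2 η3)
    refine le_trans (le_of_eq ?_) (h.trans (by linarith))
    congr 1
    apply Finset.sum_congr rfl
    intro i _
    ring
  have L1 : ∀ η2 η3 : ℝ, ‖∑ i ∈ range (n + 1), (r0.P i1 θ ω ξ0 g0 i *
        r1.P i1 θ ω ξ1 g1 i * r2.E i1 σ κ ξ2 g2 η2 i * r3.E i1 σ κ ξ3 g3 η3 i -
      r0.P i1 θ ω ξ0 g0' i * r1.P i1 θ ω ξ1 g1' i *
        r2.E i1 σ κ ξ2 g2' η2 i * r3.E i1 σ κ ξ3 g3' η3 i)‖ ≤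
      W1 * ((W0 * ((δ + M * (big H η2 + big H η3)) + M * τ)) + (W0 * M) * τ) := by
    intro η2 η3
    have e : ∑ i ∈ range (n + 1), (r0.P i1 θ ω ξ0 g0 i *
        r1.P i1 θ ω ξ1 g1 i * r2.E i1 σ κ ξ2 g2 η2 i * r3.E i1 σ κ ξ3 g3 η3 i -
      r0.P i1 θ ω ξ0 g0' i * r1.P i1 θ ω ξ1 g1' i *
        r2.E i1 σ κ ξ2 g2' η2 i * r3.E i1 σ κ ξ3 g3' η3 i) =
      ∑ i ∈ range (n + 1), ((r0.P i1 θ ω ξ0 g0 i * r2.E i1 σ κ ξ2 g2 η2 i *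
          r3.E i1 σ κ ξ3 g3 η3 i) * r1.P i1 θ ω ξ1 g1 i -
        (r0.P i1 θ ω ξ0 g0' i * r2.E i1 σ κ ξ2 g2' η2 i *
          r3.E i1 σ κ ξ3 g3' η3 i) * r1.P i1 θ ω ξ1 g1' i) := by
      apply Finset.sum_congr rfl
      intro i _
      ring
    rw [e, r1.peel (σ := σ) (κ := κ) hθ i1 (n + 1) g1 g1'
      (fun i => r0.P i1 θ ω ξ0 g0 i * r2.E i1 σ κ ξ2 g2 η2 i * r3.E i1 σ κ ξ3 g3 η3 i)
      (fun i => r0.P i1 θ ω ξ0 g0' i * r2.E i1 σ κ ξ2 g2' η2 i * r3.E i1 σ κ ξ3 g3' η3 i),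
      hW1, hτ]
    refine avg_big hθ hH (by positivity) fun η1 => ?_
    have h := L0 η1 η2 η3
    rw [hτ] at h
    refine le_trans (le_of_eq ?_) (h.trans (by
      have : 0 ≤ W0 * M * big H η1 := mul_nonneg (mul_nonneg w0 hM) (big_nonneg _ _)
      nlinarith))
    congr 1
    apply Finset.sum_congr rfl
    intro i _
    ring
  have L2 : ∀ η3 : ℝ, ‖∑ i ∈ range (n + 1), (r0.P i1 θ ω ξ0 g0 i *
        r1.P i1 θ ω ξ1 g1 i * r2.P i1 θ ω ξ2 g2 i * r3.E i1 σ κ ξ3 g3 η3 i -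
      r0.P i1 θ ω ξ0 g0' i * r1.P i1 θ ω ξ1 g1' i *
        r2.P i1 θ ω ξ2 g2' i * r3.E i1 σ κ ξ3 g3' η3 i)‖ ≤
      W2 * ((W1 * ((W0 * ((δ + M * big H η3) + M * τ)) + (W0 * M) * τ)) +
        (W1 * (W0 * M)) * τ) := by
    intro η3
    have e : ∑ i ∈ range (n + 1), (r0.P i1 θ ω ξ0 g0 i *
        r1.P i1 θ ω ξ1 g1 i * r2.P i1 θ ω ξ2 g2 i * r3.E i1 σ κ ξ3 g3 η3 i -
      r0.P i1 θ ω ξ0 g0' i * r1.P i1 θ ω ξ1 g1' i *
        r2.P i1 θ ω ξ2 g2' i * r3.E i1 σ κ ξ3 g3' η3 i) =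
      ∑ i ∈ range (n + 1), ((r0.P i1 θ ω ξ0 g0 i * r1.P i1 θ ω ξ1 g1 i *
          r3.E i1 σ κ ξ3 g3 η3 i) * r2.P i1 θ ω ξ2 g2 i -
        (r0.P i1 θ ω ξ0 g0' i * r1.P i1 θ ω ξ1 g1' i *
          r3.E i1 σ κ ξ3 g3' η3 i) * r2.P i1 θ ω ξ2 g2' i) := by
      apply Finset.sum_congr rfl
      intro i _
      ring
    rw [e, r2.peel (σ := σ) (κ := κ) hθ i1 (n + 1) g2 g2'
      (fun i => r0.P i1 θ ω ξ0 g0 i * r1.P i1 θ ω ξ1 g1 i * r3.E i1 σ κ ξ3 g3 η3 i)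
      (fun i => r0.P i1 θ ω ξ0 g0' i * r1.P i1 θ ω ξ1 g1' i * r3.E i1 σ κ ξ3 g3' η3 i),
      hW2, hτ]
    refine avg_big hθ hH (by positivity) fun η2 => ?_
    have h := L1 η2 η3
    rw [hτ] at h
    refine le_trans (le_of_eq ?_) (h.trans (le_of_eq (by ring)))
    congr 1
    apply Finset.sum_congr rfl
    intro i _
    ring
  have e : ∑ i ∈ range (n + 1), (r0.P i1 θ ω ξ0 g0 i *
        r1.P i1 θ ω ξ1 g1 i * r2.P i1 θ ω ξ2 g2 i * r3.P i1 θ ω ξ3 g3 i -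
      r0.P i1 θ ω ξ0 g0' i * r1.P i1 θ ω ξ1 g1' i *
        r2.P i1 θ ω ξ2 g2' i * r3.P i1 θ ω ξ3 g3' i) =
      ∑ i ∈ range (n + 1), ((r0.P i1 θ ω ξ0 g0 i * r1.P i1 θ ω ξ1 g1 i *
          r2.P i1 θ ω ξ2 g2 i) * r3.P i1 θ ω ξ3 g3 i -
        (r0.P i1 θ ω ξ0 g0' i * r1.P i1 θ ω ξ1 g1' i *
          r2.P i1 θ ω ξ2 g2' i) * r3.P i1 θ ω ξ3 g3' i) := by
    apply Finset.sum_congr rfl
    intro i _
    ring
  rw [e, r3.peel (σ := σ) (κ := κ) hθ i1 (n + 1) g3 g3'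
      (fun i => r0.P i1 θ ω ξ0 g0 i * r1.P i1 θ ω ξ1 g1 i * r2.P i1 θ ω ξ2 g2 i)
      (fun i => r0.P i1 θ ω ξ0 g0' i * r1.P i1 θ ω ξ1 g1' i * r2.P i1 θ ω ξ2 g2' i)]
  have hfin := avg_big (θ := θ) (β := ω + r3.c σ κ) (H := H)
    (X := W2 * ((W1 * ((W0 * (δ + M * τ)) + (W0 * M) * τ)) + (W1 * (W0 * M)) * τ))
    (P := W2 * (W1 * (W0 * M))) hθ hH (by positivity)
    (F := fun η => ∑ i ∈ range (n + 1), (r0.P i1 θ ω ξ0 g0 i *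
        r1.P i1 θ ω ξ1 g1 i * r2.P i1 θ ω ξ2 g2 i * r3.E i1 σ κ ξ3 g3 η i -
      r0.P i1 θ ω ξ0 g0' i * r1.P i1 θ ω ξ1 g1' i *
        r2.P i1 θ ω ξ2 g2' i * r3.E i1 σ κ ξ3 g3' η i))
    (fun η3 => (L2 η3).trans (le_of_eq (by ring)))
  refine hfin.trans (le_of_eq ?_)
  have hprod : Real.exp (((ω + r0.c σ κ) ^ 2 + (ω + r1.c σ κ) ^ 2 + (ω + r2.c σ κ) ^ 2 +
        (ω + r3.c σ κ) ^ 2) * θ ^ 2 / 2) = W3 * (W2 * (W1 * W0)) := by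
    rw [hW0, hW1, hW2, hW3, ← Real.exp_add, ← Real.exp_add, ← Real.exp_add]
    congr 1
    ring
  rw [hprod, ← hτ, hW3]
  ring

/-- Telescoping of a product of four sums, inclusive sums on the left of the current factor. -/
theorem telescope4 (g0 g1 g2 g3 : ℕ → ℂ) (N : ℕ) :
    (∑ i ∈ range N, g0 i) * (∑ i ∈ range N, g1 i) * (∑ i ∈ range N, g2 i) *
      (∑ i ∈ range N, g3 i) =
      ∑ i ∈ range N, (g0 i * (∑ j ∈ range i, g1 j) * (∑ j ∈ range i, g2 j) *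
          (∑ j ∈ range i, g3 j) +
        (∑ j ∈ range (i + 1), g0 j) * g1 i * (∑ j ∈ range i, g2 j) * (∑ j ∈ range i, g3 j) +
        (∑ j ∈ range (i + 1), g0 j) * (∑ j ∈ range (i + 1), g1 j) * g2 i *
          (∑ j ∈ range i, g3 j) +
        (∑ j ∈ range (i + 1), g0 j) * (∑ j ∈ range (i + 1), g1 j) *
          (∑ j ∈ range (i + 1), g2 j) * g3 i) := by
  induction N with
  | zero => simp
  | succ N ih =>
    rw [Finset.sum_range_succ (fun i => g0 i * (∑ j ∈ range i, g1 j) * (∑ j ∈ range i, g2 j) *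
          (∑ j ∈ range i, g3 j) +
        (∑ j ∈ range (i + 1), g0 j) * g1 i * (∑ j ∈ range i, g2 j) * (∑ j ∈ range i, g3 j) +
        (∑ j ∈ range (i + 1), g0 j) * (∑ j ∈ range (i + 1), g1 j) * g2 i *
          (∑ j ∈ range i, g3 j) +
        (∑ j ∈ range (i + 1), g0 j) * (∑ j ∈ range (i + 1), g1 j) *
          (∑ j ∈ range (i + 1), g2 j) * g3 i) N, ← ih,
      Finset.sum_range_succ g0, Finset.sum_range_succ g1, Finset.sum_range_succ g2,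
      Finset.sum_range_succ g3]
    ring

/-- **Product relation for four windowed sums.** -/
theorem product_relation4 {n i1 : ℕ} (hi : i1 ≤ n) {κ ω σ θ H δ M Y Rt : ℝ} (hκ : 0 ≤ κ)
    (hθ : 0 < θ) (hH : 0 ≤ H) (hδ : 0 ≤ δ) (hM0 : 0 ≤ M) {g g' : Fin 4 → ℕ → ℂ}
    (heq : ∀ m, ∀ i < i1, g m i = g' m i) (ξ : Fin 4 → ℝ) (hξ : ∀ m, |ξ m| + H ≤ Y)
    (hR : |ξ 0 + ξ 1 + ξ 2 + ξ 3| + 4 * H ≤ Rt)
    (hN : ∀ F F' : Fin 4 → ℕ → ℂ, (∀ m, Derived3 κ Y (g m) (g' m) (F m) (F' m)) →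
      ∀ s : ℂ, s.re = σ - 3 * κ → |s.im| ≤ Rt →
        ‖NN n i1 (fun i => F 0 i * F 1 i * F 2 i * F 3 i)
          (fun i => F' 0 i * F' 1 i * F' 2 i * F' 3 i) s‖ ≤ δ)
    (hM : ∀ F F' : Fin 4 → ℕ → ℂ, (∀ m, ∃ Y', Derived3 κ Y' (g m) (g' m) (F m) (F' m)) →
      ∀ s : ℂ, s.re = σ - 3 * κ →
        ‖NN n i1 (fun i => F 0 i * F 1 i * F 2 i * F 3 i)
          (fun i => F' 0 i * F' 1 i * F' 2 i * F' 3 i) s‖ ≤ M) :
    ‖VV n i1 θ ω (g 0) (ξ 0) * VV n i1 θ ω (g 1) (ξ 1) * VV n i1 θ ω (g 2) (ξ 2) *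
        VV n i1 θ ω (g 3) (ξ 3) -
      VV n i1 θ ω (g' 0) (ξ 0) * VV n i1 θ ω (g' 1) (ξ 1) * VV n i1 θ ω (g' 2) (ξ 2) *
        VV n i1 θ ω (g' 3) (ξ 3)‖ ≤
      4 * (Real.exp (((σ - ω) ^ 2 + 3 * (ω + κ) ^ 2) * θ ^ 2 / 2) *
        (δ + 8 * M * Real.exp (-(θ ^ 2 * H ^ 2 / 2)))) := by
  -- the bound for all roles
  have hB : ∀ r0 r1 r2 r3 : Role, ∀ η0 η1 η2 η3 : ℝ, ‖NN n i1
        (fun i => r0.F κ (η0 + ξ 0) (g 0) i * r1.F κ (η1 + ξ 1) (g 1) i *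
          r2.F κ (η2 + ξ 2) (g 2) i * r3.F κ (η3 + ξ 3) (g 3) i)
        (fun i => r0.F κ (η0 + ξ 0) (g' 0) i * r1.F κ (η1 + ξ 1) (g' 1) i *
          r2.F κ (η2 + ξ 2) (g' 2) i * r3.F κ (η3 + ξ 3) (g' 3) i)
        (((σ - 3 * κ : ℝ) : ℂ) -
          ((η0 + ξ 0 + (η1 + ξ 1) + (η2 + ξ 2) + (η3 + ξ 3) : ℝ) : ℂ) * I)‖
      ≤ δ + M * (big H η0 + big H η1 + big H η2 + big H η3) := by
    intro r0 r1 r2 r3 η0 η1 η2 η3
    have b0 := big_nonneg H η0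
    have b1 := big_nonneg H η1
    have b2 := big_nonneg H η2
    have b3 := big_nonneg H η3
    have hre : (((σ - 3 * κ : ℝ) : ℂ) -
          ((η0 + ξ 0 + (η1 + ξ 1) + (η2 + ξ 2) + (η3 + ξ 3) : ℝ) : ℂ) * I).re = σ - 3 * κ := by
      simp
    have him : (((σ - 3 * κ : ℝ) : ℂ) -
          ((η0 + ξ 0 + (η1 + ξ 1) + (η2 + ξ 2) + (η3 + ξ 3) : ℝ) : ℂ) * I).im =
        -(η0 + ξ 0 + (η1 + ξ 1) + (η2 + ξ 2) + (η3 + ξ 3)) := by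
      simp
    by_cases hs : |η0| ≤ H ∧ |η1| ≤ H ∧ |η2| ≤ H ∧ |η3| ≤ H
    · obtain ⟨c0, c1, c2, c3⟩ := hs
      have key := hN ![r0.F κ (η0 + ξ 0) (g 0), r1.F κ (η1 + ξ 1) (g 1),
          r2.F κ (η2 + ξ 2) (g 2), r3.F κ (η3 + ξ 3) (g 3)]
        ![r0.F κ (η0 + ξ 0) (g' 0), r1.F κ (η1 + ξ 1) (g' 1),
          r2.F κ (η2 + ξ 2) (g' 2), r3.F κ (η3 + ξ 3) (g' 3)] (by
          intro m
          fin_cases m
          · exact r0.derived ((abs_add_le _ _).trans (by linarith [hξ 0])) _ _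
          · exact r1.derived ((abs_add_le _ _).trans (by linarith [hξ 1])) _ _
          · exact r2.derived ((abs_add_le _ _).trans (by linarith [hξ 2])) _ _
          · exact r3.derived ((abs_add_le _ _).trans (by linarith [hξ 3])) _ _) _ hre (by
          rw [him, abs_neg]
          have e : η0 + ξ 0 + (η1 + ξ 1) + (η2 + ξ 2) + (η3 + ξ 3) =
            (ξ 0 + ξ 1 + ξ 2 + ξ 3) + (η0 + η1 + η2 + η3) := by ring
          rw [e]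
          have h4 : |η0 + η1 + η2 + η3| ≤ 4 * H := by
            rw [abs_le] at c0 c1 c2 c3 ⊢
            constructor <;> linarith [c0.1, c0.2, c1.1, c1.2, c2.1, c2.2, c3.1, c3.2]
          exact (abs_add_le _ _).trans (by linarith))
      refine le_trans (le_of_eq ?_) (key.trans ?_)
      · rfl
      · have : 0 ≤ M * (big H η0 + big H η1 + big H η2 + big H η3) := by positivity
        linarith
    · have key := hM ![r0.F κ (η0 + ξ 0) (g 0), r1.F κ (η1 + ξ 1) (g 1),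
          r2.F κ (η2 + ξ 2) (g 2), r3.F κ (η3 + ξ 3) (g 3)]
        ![r0.F κ (η0 + ξ 0) (g' 0), r1.F κ (η1 + ξ 1) (g' 1),
          r2.F κ (η2 + ξ 2) (g' 2), r3.F κ (η3 + ξ 3) (g' 3)] (by
          intro m
          fin_cases m
          · exact ⟨_, r0.derived le_rfl _ _⟩
          · exact ⟨_, r1.derived le_rfl _ _⟩
          · exact ⟨_, r2.derived le_rfl _ _⟩
          · exact ⟨_, r3.derived le_rfl _ _⟩) _ hre
      refine le_trans (le_of_eq ?_) (key.trans ?_)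
      · rfl
      · have h1 : 1 ≤ big H η0 + big H η1 + big H η2 + big H η3 := by
          by_contra hcon
          push Not at hcon
          apply hs
          have hb : ∀ η, big H η < 1 → |η| ≤ H := by
            intro η hη
            unfold big at hη
            split_ifs at hη with h
            · exact h
            · exact absurd hη (lt_irrefl _)
          exact ⟨hb _ (by linarith), hb _ (by linarith), hb _ (by linarith), hb _ (by linarith)⟩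
        nlinarith
  have T0 := term4 (ω := ω) hi hκ hθ hH hM0 Role.cur Role.exc Role.exc Role.exc (heq 0) (heq 1)
    (heq 2) (heq 3) (by simp only [Role.c]; ring) (hB Role.cur Role.exc Role.exc Role.exc)
  have T1 := term4 (ω := ω) hi hκ hθ hH hM0 Role.inc Role.cur Role.exc Role.exc (heq 0) (heq 1)
    (heq 2) (heq 3) (by simp only [Role.c]; ring) (hB Role.inc Role.cur Role.exc Role.exc)
  have T2 := term4 (ω := ω) hi hκ hθ hH hM0 Role.inc Role.inc Role.cur Role.exc (heq 0) (heq 1)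
    (heq 2) (heq 3) (by simp only [Role.c]; ring) (hB Role.inc Role.inc Role.cur Role.exc)
  have T3 := term4 (ω := ω) hi hκ hθ hH hM0 Role.inc Role.inc Role.inc Role.cur (heq 0) (heq 1)
    (heq 2) (heq 3) (by simp only [Role.c]; ring) (hB Role.inc Role.inc Role.inc Role.cur)
  have hdec : VV n i1 θ ω (g 0) (ξ 0) * VV n i1 θ ω (g 1) (ξ 1) * VV n i1 θ ω (g 2) (ξ 2) *
        VV n i1 θ ω (g 3) (ξ 3) -
      VV n i1 θ ω (g' 0) (ξ 0) * VV n i1 θ ω (g' 1) (ξ 1) * VV n i1 θ ω (g' 2) (ξ 2) *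
        VV n i1 θ ω (g' 3) (ξ 3) =
      (∑ i ∈ range (n + 1), (Role.cur.P i1 θ ω (ξ 0) (g 0) i * Role.exc.P i1 θ ω (ξ 1) (g 1) i *
        Role.exc.P i1 θ ω (ξ 2) (g 2) i * Role.exc.P i1 θ ω (ξ 3) (g 3) i -
      Role.cur.P i1 θ ω (ξ 0) (g' 0) i * Role.exc.P i1 θ ω (ξ 1) (g' 1) i *
        Role.exc.P i1 θ ω (ξ 2) (g' 2) i * Role.exc.P i1 θ ω (ξ 3) (g' 3) i)) +
      (∑ i ∈ range (n + 1), (Role.inc.P i1 θ ω (ξ 0) (g 0) i * Role.cur.P i1 θ ω (ξ 1) (g 1) i *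
        Role.exc.P i1 θ ω (ξ 2) (g 2) i * Role.exc.P i1 θ ω (ξ 3) (g 3) i -
      Role.inc.P i1 θ ω (ξ 0) (g' 0) i * Role.cur.P i1 θ ω (ξ 1) (g' 1) i *
        Role.exc.P i1 θ ω (ξ 2) (g' 2) i * Role.exc.P i1 θ ω (ξ 3) (g' 3) i)) +
      (∑ i ∈ range (n + 1), (Role.inc.P i1 θ ω (ξ 0) (g 0) i * Role.inc.P i1 θ ω (ξ 1) (g 1) i *
        Role.cur.P i1 θ ω (ξ 2) (g 2) i * Role.exc.P i1 θ ω (ξ 3) (g 3) i -
      Role.inc.P i1 θ ω (ξ 0) (g' 0) i * Role.inc.P i1 θ ω (ξ 1) (g' 1) i *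
        Role.cur.P i1 θ ω (ξ 2) (g' 2) i * Role.exc.P i1 θ ω (ξ 3) (g' 3) i)) +
      (∑ i ∈ range (n + 1), (Role.inc.P i1 θ ω (ξ 0) (g 0) i * Role.inc.P i1 θ ω (ξ 1) (g 1) i *
        Role.inc.P i1 θ ω (ξ 2) (g 2) i * Role.cur.P i1 θ ω (ξ 3) (g 3) i -
      Role.inc.P i1 θ ω (ξ 0) (g' 0) i * Role.inc.P i1 θ ω (ξ 1) (g' 1) i *
        Role.inc.P i1 θ ω (ξ 2) (g' 2) i * Role.cur.P i1 θ ω (ξ 3) (g' 3) i)) := by
    simp only [Role.P]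
    unfold VV Gs
    rw [telescope4, telescope4]
    simp only [← Finset.sum_sub_distrib, ← Finset.sum_add_distrib]
    apply Finset.sum_congr rfl
    intro i _
    ring
  rw [hdec]
  have hex : ∀ a b c d : ℝ, a ^ 2 + b ^ 2 + c ^ 2 + d ^ 2 = (σ - ω) ^ 2 + 3 * (ω + κ) ^ 2 →
      Real.exp ((a ^ 2 + b ^ 2 + c ^ 2 + d ^ 2) * θ ^ 2 / 2) *
        (δ + 4 * (M * (2 * Real.exp (-(θ ^ 2 * H ^ 2 / 2))))) =
      Real.exp (((σ - ω) ^ 2 + 3 * (ω + κ) ^ 2) * θ ^ 2 / 2) *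
        (δ + 8 * M * Real.exp (-(θ ^ 2 * H ^ 2 / 2))) := by
    intro a b c d h
    rw [h]
    ring
  rw [hex _ _ _ _ (by simp only [Role.c]; ring)] at T0 T1 T2 T3
  refine (norm_add_le_of_le (norm_add_le_of_le (norm_add_le_of_le T0 T1) T2) T3).trans
    (le_of_eq ?_)
  ring

end Vale.Agent.P321.H678
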