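import Vale.Agent.P321.H678.Loc

/-! # The induction step without any condition on the length -/

namespace Vale.Agent.P321.H678

open Complex Finset Vale.Agent.P321.UB Vale.Agent.P321.R2.H613

/-- The weight of a frequency in the window `|t| ≤ 5 σ`. -/
theorem weight_bounds {t σ : ℝ} (hσ : 0 < σ) (ht : |t| ≤ 5 * σ) :
    1 / 100 ≤ min 1 (1.26 - |t| / (4 * σ)) ∧ min 1 (1.26 - |t| / (4 * σ)) ≤ 1 := by
  refine ⟨le_min (by norm_num) ?_, min_le_left _ _⟩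
  have : |t| / (4 * σ) ≤ 1.25 := by
    rw [div_le_iff₀ (by positivity)]; linarith
  linarith

theorem exp_fifty_lt : Real.exp 50 < 10 ^ 27 := by
  have h1 : Real.exp 50 = Real.exp 1 ^ 50 := by rw [← Real.exp_nat_mul]; norm_num
  rw [h1]
  calc Real.exp 1 ^ 50 < 2.7182818286 ^ 50 :=
        pow_lt_pow_left₀ Real.exp_one_lt_d9 (Real.exp_pos _).le (by norm_num)
    _ < 10 ^ 27 := by norm_num

theorem length_bound {D κ : ℝ} (hD : 50 ≤ D / 10 ^ 6)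
    (hκl : Real.exp (-(D / 10 ^ 6)) ≤ κ) : 40 * D / κ + 3 ≤ Real.exp (D / 10 ^ 5) := by
  obtain ⟨u, hu⟩ : ∃ u : ℝ, u = D / 10 ^ 6 := ⟨_, rfl⟩
  have hDu : D = 10 ^ 6 * u := by rw [hu]; ring
  rw [← hu] at hD hκl
  have e0 : D / 10 ^ 5 = 10 * u := by rw [hDu]; ring
  have h1 : 1 / κ ≤ Real.exp u := by
    rw [Real.exp_neg] at hκl
    rw [one_div]
    exact inv_le_of_inv_le₀ (Real.exp_pos _) hκl
  have h2 : u ≤ Real.exp u := by linarith [Real.add_one_le_exp u]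
  have h3 : (43 : ℝ) * 10 ^ 6 ≤ Real.exp (8 * u) := by
    calc (43 : ℝ) * 10 ^ 6 ≤ 2 ^ 100 := by norm_num
      _ ≤ Real.exp 1 ^ 100 := pow_le_pow_left₀ (by norm_num) (by linarith [Real.exp_one_gt_d9]) _
      _ = Real.exp 100 := by rw [← Real.exp_nat_mul]; norm_num
      _ ≤ Real.exp (8 * u) := Real.exp_le_exp.2 (by linarith)
  have hE : 1 ≤ Real.exp u := Real.one_le_exp (by linarith)
  have hD0 : 0 ≤ D := by rw [hDu]; linarith
  have hu0 : 0 ≤ u := by linarith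
  calc 40 * D / κ + 3 = 40 * D * (1 / κ) + 3 := by ring
    _ ≤ 40 * D * Real.exp u + 3 := by gcongr
    _ = 40 * 10 ^ 6 * (u * Real.exp u) + 3 := by rw [hDu]; ring
    _ ≤ 40 * 10 ^ 6 * (u * Real.exp u) + 3 * (u * Real.exp u) := by
        have : 1 ≤ u * Real.exp u := by nlinarith
        linarith
    _ ≤ 43 * 10 ^ 6 * (u * Real.exp u) := by
        have : 0 ≤ u * Real.exp u := by positivity
        linarith
    _ ≤ Real.exp (8 * u) * (Real.exp u * Real.exp u) := by gcongr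
    _ = Real.exp (10 * u) := by rw [← Real.exp_add, ← Real.exp_add]; ring_nf
    _ = Real.exp (D / 10 ^ 5) := by rw [e0]

theorem exp_neg_le_half {t : ℝ} (ht : 1 ≤ t) : Real.exp (-t) ≤ 1 / 2 := by
  calc Real.exp (-t) ≤ Real.exp (-1) := Real.exp_le_exp.2 (by linarith)
    _ ≤ 1 / 2 := by
        rw [Real.exp_neg, inv_eq_one_div]
        exact one_div_le_one_div_of_le (by norm_num) (by linarith [Real.exp_one_gt_d9])

theorem eight_le_exp_three : (8 : ℝ) ≤ Real.exp 3 := by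
  have h4 : Real.exp 3 = Real.exp 1 ^ 3 := by rw [← Real.exp_nat_mul]; norm_num
  rw [h4]
  calc (8 : ℝ) = 2 ^ 3 := by norm_num
    _ ≤ Real.exp 1 ^ 3 := pow_le_pow_left₀ (by norm_num) (by linarith [Real.exp_one_gt_d9]) _

theorem inv_le_exp {D κ : ℝ} (hκl : Real.exp (-(D / 10 ^ 6)) ≤ κ) :
    1 / κ ≤ Real.exp (D / 10 ^ 6) := by
  rw [Real.exp_neg] at hκl
  rw [one_div]
  exact inv_le_of_inv_le₀ (Real.exp_pos _) hκl

theorem fifty_le {D κ : ℝ} (hκ : κ ≤ 1 / 10 ^ 27) (hκl : Real.exp (-(D / 10 ^ 6)) ≤ κ) :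
    50 ≤ D / 10 ^ 6 := by
  by_contra hc
  push Not at hc
  have h1 : Real.exp (-50) < Real.exp (-(D / 10 ^ 6)) := Real.exp_lt_exp.2 (by linarith)
  have h2 : Real.exp (-50) * Real.exp 50 = 1 := by rw [← Real.exp_add]; norm_num
  have h3 : Real.exp (-50) < 1 / 10 ^ 27 := h1.trans_le (hκl.trans hκ)
  have h4 : Real.exp (-50) * Real.exp 50 < 1 / 10 ^ 27 * 10 ^ 27 :=
    mul_lt_mul'' h3 exp_fifty_lt (Real.exp_pos _).le (Real.exp_pos _).le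
  rw [h2] at h4
  norm_num at h4

theorem num_start {κ0 κ D w X : ℝ} (hκ : 0 < κ) (hκκ : κ ≤ κ0) (hD : 5 * 10 ^ 7 ≤ D)
    (hκl : Real.exp (-(D / 10 ^ 6)) ≤ κ) (hX0 : 0 ≤ X) (hX : 20 * D ≤ κ * X) (hw : w ≤ 1) :
    (2 * Real.exp (-κ0 * X) + 0) * (2 / κ0) ≤ 1 / 2 * Real.exp (-(D * w)) := by
  have h1 : Real.exp (-κ0 * X) ≤ Real.exp (-(20 * D)) := by
    apply Real.exp_le_exp.2
    have : κ * X ≤ κ0 * X := by nlinarith
    linarith
  have h2 : 1 / κ0 ≤ Real.exp (D / 10 ^ 6) :=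
    (one_div_le_one_div_of_le hκ hκκ).trans (inv_le_exp hκl)
  have hκ0 : 0 < κ0 := hκ.trans_le hκκ
  have hDw : D * w ≤ D * 1 := mul_le_mul_of_nonneg_left hw (by linarith)
  have h3 := eight_le_exp_three
  calc (2 * Real.exp (-κ0 * X) + 0) * (2 / κ0)
      = 1 / 2 * (8 * Real.exp (-κ0 * X) * (1 / κ0)) := by ring
    _ ≤ 1 / 2 * (Real.exp 3 * Real.exp (-(20 * D)) * Real.exp (D / 10 ^ 6)) := by gcongr
    _ = 1 / 2 * Real.exp (3 + -(20 * D) + D / 10 ^ 6) := by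
        rw [Real.exp_add, Real.exp_add]
    _ ≤ 1 / 2 * Real.exp (-(D * w)) := by
        gcongr
        linarith

theorem num_half {D w : ℝ} (hD : 5 * 10 ^ 7 ≤ D) (hw : 1 / 100 ≤ w) :
    Real.exp (-((1 + 1 / 10 ^ 4) * D * w)) ≤ 1 / 2 * Real.exp (-(D * w)) := by
  have h1 : Real.exp (-((1 + 1 / 10 ^ 4) * D * w)) =
      Real.exp (-(D / 10 ^ 4 * w)) * Real.exp (-(D * w)) := by
    rw [← Real.exp_add]; congr 1; ring
  rw [h1]
  have h2 : 1 ≤ D / 10 ^ 4 * w := by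
    calc (1 : ℝ) ≤ 5 * 10 ^ 7 / 10 ^ 4 * (1 / 100) := by norm_num
      _ ≤ D / 10 ^ 4 * w := by gcongr
  exact mul_le_mul_of_nonneg_right (exp_neg_le_half h2) (Real.exp_pos _).le

theorem num_gain {D v : ℝ} (hD : 5 * 10 ^ 7 ≤ D) (hv : 1 / 100 ≤ v) :
    2 * Real.exp (-(10.56 * D * v)) ≤ Real.exp (-(10.55 * ((1 + 1 / 10 ^ 4) * D) * v)) := by
  have h1 : -(10.56 * D * v) =
      -(10.55 * ((1 + 1 / 10 ^ 4) * D) * v) + -(0.008945 * D * v) := by ring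
  rw [h1, Real.exp_add]
  have h2 : 1 ≤ 0.008945 * D * v := by
    calc (1 : ℝ) ≤ 0.008945 * (5 * 10 ^ 7) * (1 / 100) := by norm_num
      _ ≤ 0.008945 * D * v := by gcongr
  have h3 := exp_neg_le_half h2
  have h4 := Real.exp_pos (-(10.55 * ((1 + 1 / 10 ^ 4) * D) * v))
  have h5 := mul_le_mul_of_nonneg_left h3 h4.le
  linarith

theorem num_err {κ D v X B : ℝ} (hκ : 0 < κ) (hB : B = 2 / κ) (hD : 5 * 10 ^ 7 ≤ D)
    (hκl : Real.exp (-(D / 10 ^ 6)) ≤ κ) (hX0 : 0 ≤ X) (hX : 20 * D ≤ κ * X) (hv : v ≤ 1) :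
    (2 * B ^ 3 * Real.exp (-(300000 * κ) * X) + 6 * B ^ 2 * (Real.exp (-(20 * D)) * B)) *
      (2 / (300000 * κ)) ≤ Real.exp (-(10.56 * D * v)) := by
  have hB0 : 0 < B := by rw [hB]; positivity
  have h1 : Real.exp (-(300000 * κ) * X) ≤ Real.exp (-(20 * D)) := by
    apply Real.exp_le_exp.2
    have : 0 ≤ κ * X := by positivity
    linarith
  have h2 : 2 / (300000 * κ) ≤ B := by
    rw [hB]
    apply div_le_div_of_nonneg_left (by norm_num) hκ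
    linarith
  have h3 : B ≤ Real.exp (1 + D / 10 ^ 6) := by
    rw [hB, Real.exp_add]
    calc 2 / κ = 2 * (1 / κ) := by ring
      _ ≤ Real.exp 1 * Real.exp (D / 10 ^ 6) :=
        mul_le_mul (by linarith [Real.exp_one_gt_d9]) (inv_le_exp hκl) (by positivity)
          (Real.exp_pos _).le
  have h8 := eight_le_exp_three
  have hDv : 10.56 * D * v ≤ 10.56 * D * 1 := mul_le_mul_of_nonneg_left hv (by linarith)
  calc (2 * B ^ 3 * Real.exp (-(300000 * κ) * X) + 6 * B ^ 2 * (Real.exp (-(20 * D)) * B)) *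
        (2 / (300000 * κ))
      ≤ (2 * B ^ 3 * Real.exp (-(20 * D)) + 6 * B ^ 2 * (Real.exp (-(20 * D)) * B)) * B := by
        gcongr
    _ = 8 * B ^ 4 * Real.exp (-(20 * D)) := by ring
    _ ≤ Real.exp 3 * Real.exp (1 + D / 10 ^ 6) ^ 4 * Real.exp (-(20 * D)) := by gcongr
    _ = Real.exp (3 + 4 * (1 + D / 10 ^ 6) + -(20 * D)) := by
        rw [← Real.exp_nat_mul, Real.exp_add, Real.exp_add]; norm_num
    _ ≤ Real.exp (-(10.56 * D * v)) := by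
        apply Real.exp_le_exp.2
        linarith

theorem norm_le_add_of {P R : ℂ} {A E : ℝ} (hA : A ≤ ‖P‖) (hE : ‖P - R‖ ≤ E) : A - E ≤ ‖R‖ := by
  have h1 : ‖P‖ ≤ ‖P - R‖ + ‖R‖ := by
    calc ‖P‖ = ‖(P - R) + R‖ := by rw [sub_add_cancel]
      _ ≤ _ := norm_add_le _ _
  linarith

theorem norm_prod3_le {x y z : ℂ} {B : ℝ} (hx : ‖x‖ ≤ B) (hy : ‖y‖ ≤ B) (hz : ‖z‖ ≤ B) :
    ‖x * y * z‖ ≤ B ^ 3 := by
  have hB : 0 ≤ B := (norm_nonneg _).trans hx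
  rw [norm_mul, norm_mul]
  calc ‖x‖ * ‖y‖ * ‖z‖ ≤ B * B * B := by gcongr
    _ = B ^ 3 := by ring

/-- Transfer of the conclusion from the truncated sequences to the full ones. -/
theorem lift_three {n i1 a X : ℕ} (hi : i1 ≤ n) (ha : a = i1 - X) {f f' : ℕ → ℂ}
    {κ κ0 R : ℝ} (hκ : 0 < κ) (hκ1 : κ ≤ 1 / 10 ^ 27) (hX : R ≤ κ * X)
    (hf : ∀ i ≤ n, ‖f i‖ ≤ 1) (hf' : ∀ i ≤ n, ‖f' i‖ ≤ 1)
    {g g' F F' : Fin 3 → ℕ → ℂ}
    (hg : ∀ m, Simple6 (fun j => f (a + j)) (fun j => f' (a + j)) (g m) (g' m))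
    (hF : ∀ m, Derived κ (210 * κ0) (g m) (g' m) (F m) (F' m)) {s : ℂ}
    (hs : s.re = 300000 * κ) :
    ∃ G G' H H' : Fin 3 → ℕ → ℂ, (∀ m, Simple6 f f' (G m) (G' m)) ∧
      (∀ m, Derived κ (210 * κ0) (G m) (G' m) (H m) (H' m)) ∧
      ‖NN (min n (i1 + X) - a) (i1 - a) (fun i => F 0 i * F 1 i * F 2 i)
          (fun i => F' 0 i * F' 1 i * F' 2 i) s -
        NN n i1 (fun i => H 0 i * H 1 i * H 2 i) (fun i => H' 0 i * H' 1 i * H' 2 i) s‖ ≤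
      (2 * (2 / κ) ^ 3 * Real.exp (-(300000 * κ) * X) +
        6 * (2 / κ) ^ 2 * (Real.exp (-R) * (2 / κ))) * (2 / (300000 * κ)) := by
  have hlift := fun m => lift_one (Y := 210 * κ0) hi ha hκ (hκ1.trans (by norm_num)) hX hf hf'
    (hg m) (hF m)
  choose G G' H H' hG hH hHb hHb' hFb hFb' hHF hHF' using hlift
  obtain ⟨B, hB⟩ : ∃ B : ℝ, B = 2 / κ := ⟨_, rfl⟩
  simp only [← hB] at hHb hHb' hFb hFb' hHF hHF' ⊢
  have hB0 : 0 < B := by rw [hB]; positivity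
  have hε0 : 0 ≤ Real.exp (-R) * B := by positivity
  have hσ0 : (0 : ℝ) < 300000 * κ := by positivity
  have hσ1 : 300000 * κ ≤ 1 := by
    have := mul_le_mul_of_nonneg_left hκ1 (show (0 : ℝ) ≤ 300000 by norm_num)
    refine this.trans (by norm_num)
  refine ⟨G, G', H, H', hG, hH, ?_⟩
  rw [norm_sub_rev]
  refine NN_compare (A := 2 * B ^ 3) (ε := 6 * B ^ 2 * (Real.exp (-R) * B)) hi ha hs
    hσ0 hσ1 (by positivity) (by positivity) (fun i h1 h2 => ?_) (fun j h1 h2 => ?_)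
  · refine (norm_sub_le _ _).trans ?_
    have e1 := norm_prod3_le (hHb 0 i h2) (hHb 1 i h2) (hHb 2 i h2)
    have e2 := norm_prod3_le (hHb' 0 i h2) (hHb' 1 i h2) (hHb' 2 i h2)
    linarith
  · have e1 := norm_prod3_sub_le hB0.le (hHb 1 _ h2) (hHb 2 _ h2) (hFb 0 j h2) (hFb 1 j h2) hε0
      (hHF 0 j h1 h2) (hHF 1 j h1 h2) (hHF 2 j h1 h2)
    have e2 := norm_prod3_sub_le hB0.le (hHb' 1 _ h2) (hHb' 2 _ h2) (hFb' 0 j h2) (hFb' 1 j h2)
      hε0 (hHF' 0 j h1 h2) (hHF' 1 j h1 h2) (hHF' 2 j h1 h2)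
    rw [sub_sub_sub_comm]
    refine (norm_sub_le _ _).trans ?_
    linarith

/-- The induction step `R3.H101.step5` with no condition on `n`. -/
theorem step5_local {n i1 : ℕ} {f f' : ℕ → ℂ} {D κ0 κ : ℝ} {s0 : ℂ} (hi : i1 ≤ n)
    (hreal : ∀ i, (starRingEnd ℂ) (f i) = f i) (hreal' : ∀ i, (starRingEnd ℂ) (f' i) = f' i)
    (hf : ∀ i ≤ n, ‖f i‖ ≤ 1) (hf' : ∀ i ≤ n, ‖f' i‖ ≤ 1)
    (heq : ∀ i < i1, f i = f' i)
    (hκl : Real.exp (-(D / 10 ^ 6)) ≤ κ)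
    (hκκ : 10 ^ 11 * κ ≤ κ0) (hκ0 : κ0 ≤ 1 / 10 ^ 16) (hs0 : s0.re = κ0)
    (hs0i : |s0.im| ≤ 5 * κ0)
    (hs : Real.exp (-(D * min 1 (1.26 - |s0.im| / (4 * κ0)))) ≤ ‖NN n i1 f f' s0‖) :
    ∃ g g' F F' : Fin 3 → ℕ → ℂ, (∀ m, Simple6 f f' (g m) (g' m)) ∧
      (∀ m, Derived κ (210 * κ0) (g m) (g' m) (F m) (F' m)) ∧
      ∃ s : ℂ, s.re = 300000 * κ ∧ |s.im| ≤ 1500000 * κ ∧
        Real.exp (-(10.56 * D * min 1 (1.26 - |s.im| / (1200000 * κ)))) ≤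
          ‖NN n i1 (fun i => F 0 i * F 1 i * F 2 i) (fun i => F' 0 i * F' 1 i * F' 2 i) s‖ := by
  have hκ : 0 < κ := lt_of_lt_of_le (Real.exp_pos _) hκl
  have hκ0p : 0 < κ0 := by linarith
  have hκle : κ ≤ κ0 := by linarith
  have hκ27 : κ ≤ 1 / 10 ^ 27 := by
    rw [le_div_iff₀ (by positivity)] at hκ0 ⊢
    linarith
  have hκ01 : κ0 ≤ 1 := hκ0.trans (by norm_num)
  have hD50 : 50 ≤ D / 10 ^ 6 := fifty_le hκ27 hκl
  have hDbig : 5 * 10 ^ 7 ≤ D := by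
    rw [le_div_iff₀ (by positivity)] at hD50; linarith
  obtain ⟨X, hX⟩ : ∃ X : ℕ, X = ⌈20 * D / κ⌉₊ := ⟨_, rfl⟩
  have hXl : 20 * D / κ ≤ X := by rw [hX]; exact Nat.le_ceil _
  have hXu : (X : ℝ) ≤ 20 * D / κ + 1 := by
    rw [hX]; exact (Nat.ceil_lt_add_one (by positivity)).le
  have hX0 : (0 : ℝ) ≤ X := Nat.cast_nonneg X
  have hκX : 20 * D ≤ κ * X := by
    rw [div_le_iff₀ hκ] at hXl; linarith
  obtain ⟨a, ha⟩ : ∃ a : ℕ, a = i1 - X := ⟨_, rfl⟩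
  obtain ⟨h, hh⟩ : ∃ h : ℕ → ℂ, h = fun j => f (a + j) := ⟨_, rfl⟩
  obtain ⟨h', hh'⟩ : ∃ h' : ℕ → ℂ, h' = fun j => f' (a + j) := ⟨_, rfl⟩
  obtain ⟨N, hN⟩ : ∃ N : ℕ, N = min n (i1 + X) - a := ⟨_, rfl⟩
  obtain ⟨D', hD'⟩ : ∃ D' : ℝ, D' = (1 + 1 / 10 ^ 4) * D := ⟨_, rfl⟩
  have hDD' : D ≤ D' := by rw [hD']; linarith
  have hNle : (N : ℝ) + 1 ≤ Real.exp (D' / 10 ^ 5) := by
    have h1 : N ≤ 2 * X := by omega
    have h2 : (N : ℝ) ≤ 2 * X := by exact_mod_cast h1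
    calc (N : ℝ) + 1 ≤ 40 * D / κ + 3 := by
          have : 40 * D / κ = 2 * (20 * D / κ) := by ring
          rw [this]; linarith
      _ ≤ Real.exp (D / 10 ^ 5) := length_bound hD50 hκl
      _ ≤ Real.exp (D' / 10 ^ 5) := Real.exp_le_exp.2 (by gcongr)
  obtain ⟨hw1, hw2⟩ := weight_bounds hκ0p hs0i
  -- the hypothesis for the truncated pair
  have hstart : Real.exp (-(D' * min 1 (1.26 - |s0.im| / (4 * κ0)))) ≤
      ‖NN N (i1 - a) h h' s0‖ := by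
    have hcmp : ‖NN n i1 f f' s0 - NN N (i1 - a) h h' s0‖ ≤
        (2 * Real.exp (-κ0 * X) + 0) * (2 / κ0) := by
      rw [hN]
      exact NN_compare (F := f) (F' := f') (G := h) (G' := h') (A := 2) (ε := 0) hi ha hs0
        hκ0p hκ01 (by norm_num) le_rfl
        (fun i h1 h2 => (norm_sub_le _ _).trans (by linarith [hf i h2, hf' i h2]))
        (fun j h1 h2 => by rw [hh, hh', sub_self, norm_zero])
    have h1 := norm_le_add_of hs (hcmp.trans (num_start hκ hκle hDbig hκl hX0 hκX hw2))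
    have h2 := num_half hDbig hw1
    rw [← hD'] at h2
    linarith
  obtain ⟨g, g', F, F', hg, hF, s, hsre, hsim, hfin⟩ := R3.H101.step5 (n := N) (i1 := i1 - a)
    (f := h) (f' := h') (D := D') (κ0 := κ0) (κ := κ) (s0 := s0) (by omega)
    (fun i => by rw [hh]; exact hreal _) (fun i => by rw [hh']; exact hreal' _) (by linarith)
    (fun i hin => by rw [hh]; exact hf _ (by omega))
    (fun i hin => by rw [hh']; exact hf' _ (by omega))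
    (fun i hin => by rw [hh, hh']; exact heq _ (by omega)) hNle
    (le_trans (Real.exp_le_exp.2 (by
      have : D / 10 ^ 6 ≤ D' / 10 ^ 5 := by
        rw [div_le_div_iff₀ (by positivity) (by positivity)]; linarith
      linarith)) hκl) hκκ hκ0 hs0 hs0i hstart
  subst hh hh' hN
  obtain ⟨G, G', H, H', hG, hH, hc⟩ := lift_three (κ0 := κ0) hi ha hκ hκ27 hκX hf hf' hg hF hsre
  refine ⟨G, G', H, H', hG, hH, s, hsre, hsim, ?_⟩
  have hσ0 : (0 : ℝ) < 300000 * κ := by positivity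
  obtain ⟨hv1, hv2⟩ := weight_bounds (t := s.im) hσ0 (by linarith)
  have hden : (4 : ℝ) * (300000 * κ) = 1200000 * κ := by ring
  rw [hden] at hv1 hv2
  have h1 := norm_le_add_of hfin (hc.trans (num_err hκ rfl hDbig hκl hX0 hκX hv2))
  have h2 := num_gain hDbig hv1
  rw [← hD'] at h2
  linarith

end Vale.Agent.P321.H678
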