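import Vale.Agent.P321.H678.Step5L
import Vale.Agent.P321.H678.Prod4

/-! # Trivial bounds for products of four derived sequences, and their truncation -/

namespace Vale.Agent.P321.H678

open Complex Finset Vale.Agent.P321.UB Vale.Agent.P321.R2.H613

theorem norm_inc_geom {z : ℂ} {ρ : ℝ} (hz : ‖z‖ ≤ ρ) (hρ : ρ < 1) {n : ℕ} {f : ℕ → ℂ}
    (hf : ∀ i ≤ n, ‖f i‖ ≤ 1) : ∀ i ≤ n, ‖z * seqS z f i + f i‖ ≤ 1 / (1 - ρ) := by
  have h1 : 0 < 1 - ρ := by linarith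
  have hρ0 : 0 ≤ ρ := (norm_nonneg _).trans hz
  intro i hi
  have h2 := norm_seqS_geom hz hρ hf i hi
  calc ‖z * seqS z f i + f i‖ ≤ ‖z‖ * ‖seqS z f i‖ + ‖f i‖ :=
        (norm_add_le _ _).trans (by rw [norm_mul])
    _ ≤ ρ * (1 / (1 - ρ)) + 1 := by
        gcongr
        exact hf i hi
    _ = 1 / (1 - ρ) := by field_simp; ring

/-- Derived sequences are bounded by `2 / κ`. -/
theorem norm_derived3_le {n : ℕ} {κ Y : ℝ} (hκ : 0 < κ) (hκ1 : κ ≤ 1) {g g' F F' : ℕ → ℂ}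
    (hg : ∀ i ≤ n, ‖g i‖ ≤ 1) (hg' : ∀ i ≤ n, ‖g' i‖ ≤ 1) (h : Derived3 κ Y g g' F F') :
    (∀ i ≤ n, ‖F i‖ ≤ 2 / κ) ∧ ∀ i ≤ n, ‖F' i‖ ≤ 2 / κ := by
  have hB1 : 1 ≤ 2 / κ := by rw [le_div_iff₀ hκ]; linarith
  have hlt : Real.exp (-κ) < 1 := by rw [Real.exp_lt_one_iff]; linarith
  have hinv := inv_one_sub_exp_le hκ hκ1
  rcases h with ⟨rfl, rfl⟩ | ⟨y, -, rfl, rfl⟩ | ⟨y, -, rfl, rfl⟩
  · exact ⟨fun i hi => (hg i hi).trans hB1, fun i hi => (hg' i hi).trans hB1⟩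
  · exact ⟨fun i hi => (norm_seqS_geom (norm_cexp_real κ y).le hlt hg i hi).trans hinv,
      fun i hi => (norm_seqS_geom (norm_cexp_real κ y).le hlt hg' i hi).trans hinv⟩
  · exact ⟨fun i hi => (norm_inc_geom (norm_cexp_real κ y).le hlt hg i hi).trans hinv,
      fun i hi => (norm_inc_geom (norm_cexp_real κ y).le hlt hg' i hi).trans hinv⟩

theorem norm_prod4_le {x y z w : ℂ} {B : ℝ} (hx : ‖x‖ ≤ B) (hy : ‖y‖ ≤ B) (hz : ‖z‖ ≤ B)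
    (hw : ‖w‖ ≤ B) : ‖x * y * z * w‖ ≤ B ^ 4 := by
  have hB : 0 ≤ B := (norm_nonneg _).trans hx
  rw [norm_mul, norm_mul, norm_mul]
  calc ‖x‖ * ‖y‖ * ‖z‖ * ‖w‖ ≤ B * B * B * B := by gcongr
    _ = B ^ 4 := by ring

theorem norm_prod4_sub_le {x y z w x' y' z' w' : ℂ} {B e : ℝ} (hB : 0 ≤ B)
    (hy : ‖y‖ ≤ B) (hz : ‖z‖ ≤ B) (hw : ‖w‖ ≤ B) (hx' : ‖x'‖ ≤ B) (hy' : ‖y'‖ ≤ B)
    (hz' : ‖z'‖ ≤ B) (he : 0 ≤ e) (h1 : ‖x - x'‖ ≤ e) (h2 : ‖y - y'‖ ≤ e)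
    (h3 : ‖z - z'‖ ≤ e) (h4 : ‖w - w'‖ ≤ e) :
    ‖x * y * z * w - x' * y' * z' * w'‖ ≤ 4 * B ^ 3 * e := by
  have e1 : x * y * z * w - x' * y' * z' * w' = (x * y * z - x' * y' * z') * w +
      x' * y' * z' * (w - w') := by ring
  have h5 := norm_prod3_sub_le hB hy hz hx' hy' he h1 h2 h3
  have h6 := norm_prod3_le hx' hy' hz'
  rw [e1]
  calc ‖(x * y * z - x' * y' * z') * w + x' * y' * z' * (w - w')‖
      ≤ ‖x * y * z - x' * y' * z'‖ * ‖w‖ + ‖x' * y' * z'‖ * ‖w - w'‖ := by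
        refine (norm_add_le _ _).trans ?_
        rw [norm_mul, norm_mul (x' * y' * z')]
    _ ≤ (3 * B ^ 2 * e) * B + B ^ 3 * e := by gcongr
    _ = _ := by ring

/-- Geometric bound of `NN`. -/
theorem NN_geom {n i1 : ℕ} {F F' : ℕ → ℂ} {s : ℂ} {σ A : ℝ} (hs : s.re = σ) (h0 : 0 < σ)
    (h1 : σ ≤ 1) (hA0 : 0 ≤ A) (hA : ∀ i, i1 ≤ i → i ≤ n → ‖F i - F' i‖ ≤ A) :
    ‖NN n i1 F F' s‖ ≤ A * (2 / σ) := by
  unfold NN expSum
  refine (norm_sum_le _ _).trans ?_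
  calc ∑ k ∈ range (n + 1 - i1), ‖dif i1 F F' k * cexp (-s * k)‖
      ≤ ∑ k ∈ range (n + 1 - i1), A * Real.exp (-σ * k) := by
        apply Finset.sum_le_sum
        intro k hk
        rw [Finset.mem_range] at hk
        rw [norm_mul, norm_cexp_mul_nat, hs]
        gcongr
        exact hA (i1 + k) (by omega) (by omega)
    _ = A * ∑ k ∈ range (n + 1 - i1), Real.exp (-σ * k) := by rw [Finset.mul_sum]
    _ ≤ A * (Real.exp (-σ * (0 : ℕ)) * (2 / σ)) := by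
        gcongr
        rw [Finset.range_eq_Ico]
        exact geom_tail h0 h1 _ _
    _ = _ := by simp

/-- **Trivial bound for the products of four derived sequences.** -/
theorem NN_triv4 {n i1 : ℕ} {κ : ℝ} (hκ : 0 < κ) (hκ1 : κ ≤ 1) {g g' F F' : Fin 4 → ℕ → ℂ}
    (hg : ∀ m, ∀ i ≤ n, ‖g m i‖ ≤ 1) (hg' : ∀ m, ∀ i ≤ n, ‖g' m i‖ ≤ 1)
    (h : ∀ m, ∃ Y', Derived3 κ Y' (g m) (g' m) (F m) (F' m)) {s : ℂ} {σ : ℝ} (hs : s.re = σ)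
    (h0 : 0 < σ) (h1 : σ ≤ 1) :
    ‖NN n i1 (fun i => F 0 i * F 1 i * F 2 i * F 3 i)
      (fun i => F' 0 i * F' 1 i * F' 2 i * F' 3 i) s‖ ≤ 64 / (κ ^ 4 * σ) := by
  have hb : ∀ m, (∀ i ≤ n, ‖F m i‖ ≤ 2 / κ) ∧ ∀ i ≤ n, ‖F' m i‖ ≤ 2 / κ := fun m => by
    obtain ⟨Y', hY⟩ := h m
    exact norm_derived3_le hκ hκ1 (hg m) (hg' m) hY
  have key := NN_geom (n := n) (i1 := i1) (F := fun i => F 0 i * F 1 i * F 2 i * F 3 i)
    (F' := fun i => F' 0 i * F' 1 i * F' 2 i * F' 3 i) (A := 2 * (2 / κ) ^ 4) hs h0 h1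
    (by positivity) (fun i _ hi => by
      have e1 := norm_prod4_le ((hb 0).1 i hi) ((hb 1).1 i hi) ((hb 2).1 i hi) ((hb 3).1 i hi)
      have e2 := norm_prod4_le ((hb 0).2 i hi) ((hb 1).2 i hi) ((hb 2).2 i hi) ((hb 3).2 i hi)
      exact (norm_sub_le _ _).trans (by linarith))
  refine key.trans (le_of_eq ?_)
  field_simp
  ring

/-- Lifting of one pair derived from the shifted sequences, inclusive filters allowed. -/
theorem lift_one3 {n i1 a X : ℕ} (hi : i1 ≤ n) (ha : a = i1 - X) {f f' : ℕ → ℂ}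
    {κ Y R : ℝ} (hκ : 0 < κ) (hκ1 : κ ≤ 1) (hX : R ≤ κ * X)
    (hf : ∀ i ≤ n, ‖f i‖ ≤ 1) (hf' : ∀ i ≤ n, ‖f' i‖ ≤ 1)
    {g g' F F' : ℕ → ℂ} (hg : Simple6 (fun j => f (a + j)) (fun j => f' (a + j)) g g')
    (hF : Derived3 κ Y g g' F F') :
    ∃ G G' H H' : ℕ → ℂ, Simple6 f f' G G' ∧ Derived3 κ Y G G' H H' ∧
      (∀ i ≤ n, ‖H i‖ ≤ 2 / κ) ∧ (∀ i ≤ n, ‖H' i‖ ≤ 2 / κ) ∧
      (∀ j, a + j ≤ n → ‖F j‖ ≤ 2 / κ) ∧ (∀ j, a + j ≤ n → ‖F' j‖ ≤ 2 / κ) ∧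
      (∀ j, i1 - a ≤ j → a + j ≤ n → ‖H (a + j) - F j‖ ≤ Real.exp (-R) * (2 / κ)) ∧
      (∀ j, i1 - a ≤ j → a + j ≤ n → ‖H' (a + j) - F' j‖ ≤ Real.exp (-R) * (2 / κ)) := by
  have hlt : Real.exp (-κ) < 1 := by rw [Real.exp_lt_one_iff]; linarith
  have hinv := inv_one_sub_exp_le hκ hκ1
  rcases hF with h | h | ⟨y, hy, rfl, rfl⟩
  · obtain ⟨G, G', H, H', h1, h2, h3⟩ := lift_one hi ha hκ hκ1 hX hf hf' hg
      (show Derived κ Y g g' F F' from Or.inl h)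
    refine ⟨G, G', H, H', h1, ?_, h3⟩
    rcases h2 with h2 | h2
    · exact Or.inl h2
    · exact Or.inr (Or.inl h2)
  · obtain ⟨G, G', H, H', h1, h2, h3⟩ := lift_one hi ha hκ hκ1 hX hf hf' hg
      (show Derived κ Y g g' F F' from Or.inr h)
    refine ⟨G, G', H, H', h1, ?_, h3⟩
    rcases h2 with h2 | h2
    · exact Or.inl h2
    · exact Or.inr (Or.inl h2)
  · obtain ⟨G, G', hS, hGg, hGg', hG1, hG1'⟩ : ∃ G G' : ℕ → ℂ, Simple6 f f' G G' ∧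
        g = (fun j => G (a + j)) ∧ g' = (fun j => G' (a + j)) ∧
        (∀ i ≤ n, ‖G i‖ ≤ 1) ∧ (∀ i ≤ n, ‖G' i‖ ≤ 1) := by
      rcases hg with ⟨rfl, rfl⟩ | ⟨rfl, rfl⟩
      · exact ⟨f, f', Or.inl ⟨rfl, rfl⟩, rfl, rfl, hf, hf'⟩
      · exact ⟨fun _ => 1, fun _ => 1, Or.inr ⟨rfl, rfl⟩, rfl, rfl, by simp, by simp⟩
    have haN : a ≤ n := by omega
    set z := cexp (-((κ : ℂ) + y * I)) with hzdef
    have hz : ‖z‖ = Real.exp (-κ) := norm_cexp_real κ y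
    have hz1 : ‖z‖ ≤ 1 := by rw [hz]; exact hlt.le
    have hap : ∀ {L : ℕ → ℂ}, (∀ i ≤ n, ‖L i‖ ≤ 1) → ∀ j, i1 - a ≤ j → a + j ≤ n →
        ‖(z * seqS z L (a + j) + L (a + j)) -
          (z * seqS z (fun k => L (a + k)) j + L (a + j))‖ ≤ Real.exp (-R) * (2 / κ) := by
      intro L hL j hj hjn
      rw [add_sub_add_right_eq_sub, ← mul_sub, norm_mul, seqS_shift, add_sub_cancel_right]
      by_cases ha0 : a = 0
      · have : seqS z L a = 0 := by rw [ha0]; rfl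
        rw [this, mul_zero, norm_zero, mul_zero]; positivity
      have hXj : X ≤ j := by omega
      have h9 : ‖z ^ j * seqS z L a‖ ≤ Real.exp (-R) * (2 / κ) := by
        rw [norm_mul, norm_pow, hz, ← Real.exp_nat_mul]
        gcongr
        · have : (X : ℝ) ≤ j := by exact_mod_cast hXj
          nlinarith
        · exact (norm_seqS_geom hz.le hlt hL a haN).trans hinv
      calc ‖z‖ * ‖z ^ j * seqS z L a‖ ≤ 1 * (Real.exp (-R) * (2 / κ)) :=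
            mul_le_mul hz1 h9 (norm_nonneg _) zero_le_one
        _ = _ := one_mul _
    subst hGg hGg'
    have hsh : ∀ {L : ℕ → ℂ}, (∀ i ≤ n, ‖L i‖ ≤ 1) → ∀ j, a + j ≤ n →
        ‖z * seqS z (fun k => L (a + k)) j + L (a + j)‖ ≤ 2 / κ := fun hL j hj =>
      (norm_inc_geom (n := n - a) hz.le hlt (fun i hi => hL (a + i) (by omega)) j
        (by omega)).trans hinv
    exact ⟨G, G', fun i => z * seqS z G i + G i, fun i => z * seqS z G' i + G' i, hS,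
      Or.inr (Or.inr ⟨y, hy, rfl, rfl⟩),
      fun i hi => (norm_inc_geom hz.le hlt hG1 i hi).trans hinv,
      fun i hi => (norm_inc_geom hz.le hlt hG1' i hi).trans hinv,
      hsh hG1, hsh hG1', hap hG1, hap hG1'⟩

end Vale.Agent.P321.H678
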